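import Mathlib

namespace Crest.Agent.Imm

open Finset Matrix

theorem rank_add_le' {K m n : Type*} [Field K] [Fintype m] [Fintype n] (A B : Matrix m n K) :
    (A + B).rank ≤ A.rank + B.rank := by
  unfold Matrix.rank
  refine le_trans (Submodule.finrank_mono ?_) (Submodule.finrank_add_le_finrank_add_finrank _ _)
  rintro _ ⟨v, rfl⟩
  rw [Matrix.mulVecLin_add]
  exact Submodule.add_mem_sup ⟨v, rfl⟩ ⟨v, rfl⟩

theorem rank_real_le {K m n : Type*} [Field K] [CharZero K] [Fintype m] [Fintype n]
    (F : Matrix m n ℕ) :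
    (F.map (fun x => (x : ℝ))).rank ≤ (F.map (fun x => (x : K))).rank := by
  classical
  rw [Matrix.rank_eq_finrank_span_row, Matrix.rank_eq_finrank_span_row]
  obtain ⟨κ, a, ha, hsp, hli⟩ := exists_linearIndependent' ℝ (F.map (fun x => (x : ℝ))).row
  have : Finite κ := Finite.of_injective a ha
  have : Fintype κ := Fintype.ofFinite κ
  rw [← hsp, finrank_span_eq_card hli]
  have h1 : LinearIndependent ℚ (fun i : κ => fun j => ((F (a i) j : ℕ) : ℚ)) := by
    rw [← linearIndependent_algebraMap_comp_iff (S := ℝ)]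
    have e : (fun i : κ => ⇑(algebraMap ℚ ℝ) ∘ fun j => ((F (a i) j : ℕ) : ℚ))
        = (F.map (fun x => (x : ℝ))).row ∘ a := by
      ext i j
      simp [Matrix.row]
    rw [e]; exact hli
  have h2 : LinearIndependent K (fun i : κ => fun j => ((F (a i) j : ℕ) : K)) := by
    rw [← linearIndependent_algebraMap_comp_iff (S := K)] at h1
    have e : (fun i : κ => ⇑(algebraMap ℚ K) ∘ fun j => ((F (a i) j : ℕ) : ℚ))
        = (fun i : κ => fun j => ((F (a i) j : ℕ) : K)) := by
      ext i j
      simp
    rw [e] at h1; exact h1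
  rw [← finrank_span_eq_card h2]
  apply Submodule.finrank_mono
  apply Submodule.span_mono
  rintro _ ⟨i, rfl⟩
  exact ⟨a i, by ext j; simp [Matrix.row]⟩

theorem trace_sq_le_rank {m : Type*} [Fintype m] [DecidableEq m] (A : Matrix m m ℝ)
    (hA : A.IsHermitian) : A.trace ^ 2 ≤ A.rank * (A * A).trace := by
  have h1 : A.trace = ∑ i, hA.eigenvalues i := by
    simpa using hA.trace_eq_sum_eigenvalues
  have h2 : (A * A).trace = ∑ i, hA.eigenvalues i ^ 2 := by
    set U : Matrix m m ℝ := (hA.eigenvectorUnitary : Matrix m m ℝ) with hU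
    have hs : A = U * diagonal hA.eigenvalues * star U := by
      have := hA.spectral_theorem
      rw [Unitary.conjStarAlgAut_apply] at this
      simpa [hU] using this
    have hu : star U * U = 1 := by
      simp [hU]
    have : A * A = U * (diagonal hA.eigenvalues * diagonal hA.eigenvalues) * star U := by
      conv_lhs => rw [hs]
      simp only [Matrix.mul_assoc]
      rw [← Matrix.mul_assoc (star U) U, hu, Matrix.one_mul]
    rw [this, Matrix.trace_mul_comm, ← Matrix.mul_assoc, hu, Matrix.one_mul,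
      diagonal_mul_diagonal, trace_diagonal]
    simp [sq]
  rw [h1, h2, hA.rank_eq_card_non_zero_eigs, Fintype.card_subtype]
  set s := univ.filter (fun i => hA.eigenvalues i ≠ 0) with hs
  have e1 : ∑ i, hA.eigenvalues i = ∑ i ∈ s, hA.eigenvalues i := by
    rw [hs, Finset.sum_filter]
    refine Finset.sum_congr rfl fun i _ => ?_
    by_cases h : hA.eigenvalues i = 0 <;> simp [h]
  have e2 : ∑ i, hA.eigenvalues i ^ 2 = ∑ i ∈ s, hA.eigenvalues i ^ 2 := by
    rw [hs, Finset.sum_filter]
    refine Finset.sum_congr rfl fun i _ => ?_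
    by_cases h : hA.eigenvalues i = 0 <;> simp [h]
  rw [e1, e2]
  exact sq_sum_le_card_mul_sum_sq

theorem frob_sq_le_rank {m n : Type*} [Fintype m] [Fintype n] (F : Matrix m n ℝ) :
    (∑ S, ∑ T, F S T ^ 2) ^ 2 ≤ F.rank * ∑ S, ∑ S', (∑ T, F S T * F S' T) ^ 2 := by
  classical
  have hA : (F * Fᵀ).IsHermitian := by
    have := Matrix.isHermitian_mul_conjTranspose_self F
    simpa [Matrix.conjTranspose_eq_transpose_of_trivial] using this
  have h := trace_sq_le_rank _ hA
  rw [Matrix.rank_self_mul_transpose] at h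
  have e1 : (F * Fᵀ).trace = ∑ S, ∑ T, F S T ^ 2 := by
    simp [Matrix.trace, Matrix.mul_apply, sq]
  have e2 : (F * Fᵀ * (F * Fᵀ)).trace = ∑ S, ∑ S', (∑ T, F S T * F S' T) ^ 2 := by
    simp only [Matrix.trace, Matrix.diag, Matrix.mul_apply, Matrix.transpose_apply, sq]
    refine Finset.sum_congr rfl fun S _ => Finset.sum_congr rfl fun S' _ => ?_
    congr 1
    exact Finset.sum_congr rfl fun T _ => mul_comm _ _
  rwa [e1, e2] at h

end Crest.Agent.Imm
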