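import Mathlib
import Crest.Agent.Imm.Rank

namespace Crest.Agent.Imm

open Finset MvPolynomial

variable {ι : Type*} [Fintype ι] [DecidableEq ι] {K : Type*} [Field K]

/-- squarefree exponent vector of a set -/
noncomputable def ind (A : Finset ι) : ι →₀ ℕ := Finsupp.indicator A (fun _ _ => 1)

omit [Fintype ι] in
theorem ind_apply (A : Finset ι) (i : ι) : ind A i = if i ∈ A then 1 else 0 := by
  unfold ind
  rw [Finsupp.indicator_apply]
  split_ifs <;> rfl

/-- multilinear coefficient -/
noncomputable def cf (f : MvPolynomial ι K) (A : Finset ι) : K := coeff (ind A) f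

omit [Fintype ι] in
theorem cf_mul (g h : MvPolynomial ι K) (A : Finset ι) :
    cf (g * h) A = ∑ B ∈ A.powerset, cf g B * cf h (A \ B) := by
  unfold cf
  rw [coeff_mul]
  symm
  refine Finset.sum_bij (fun B _ => (ind B, ind (A \ B))) ?_ ?_ ?_ ?_
  · intro B hB
    rw [mem_powerset] at hB
    rw [HasAntidiagonal.mem_antidiagonal]
    ext i
    simp only [Finsupp.add_apply, ind_apply, mem_sdiff]
    by_cases h1 : i ∈ B
    · simp [h1, hB h1]
    · by_cases h2 : i ∈ A <;> simp [h1, h2]
  · intro B _ B' _ h
    have h1 : ind B = ind B' := congrArg Prod.fst h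
    ext i
    have := DFunLike.congr_fun h1 i
    simp only [ind_apply] at this
    by_cases h1 : i ∈ B <;> by_cases h2 : i ∈ B' <;> simp_all
  · rintro ⟨u, v⟩ huv
    rw [HasAntidiagonal.mem_antidiagonal] at huv
    have hi : ∀ i, u i + v i = if i ∈ A then 1 else 0 := fun i => by
      have := DFunLike.congr_fun huv i
      simpa [ind_apply] using this
    refine ⟨A.filter (fun i => u i = 1), by simp, ?_⟩
    ext i
    · have := hi i
      simp only [ind_apply, mem_filter]
      by_cases h2 : i ∈ A
      · simp only [h2, if_true, true_and] at this ⊢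
        split_ifs <;> omega
      · simp only [h2, if_false, false_and] at this ⊢
        omega
    · have := hi i
      simp only [ind_apply, mem_filter, mem_sdiff]
      by_cases h2 : i ∈ A
      · simp only [h2, if_true, true_and] at this ⊢
        split_ifs <;> omega
      · simp only [h2, if_false, false_and] at this ⊢
        omega
  · intro B _
    rfl

/-- bidegree weight -/
def wt (Y : Finset ι) : ι → ℕ × ℕ := fun i => if i ∈ Y then (1, 0) else (0, 1)

theorem weight_ind (Y A : Finset ι) :
    Finsupp.weight (wt Y) (ind A) = (#(A ∩ Y), #(A \ Y)) := by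
  rw [Finsupp.weight_eq_sum]
  have h1 : ∑ i, (ind A i • wt Y i).1 = #(A ∩ Y) := by
    rw [Finset.card_eq_sum_ones, ← Finset.sum_subset (Finset.subset_univ (A ∩ Y))]
    · refine Finset.sum_congr rfl fun i hi => ?_
      rw [mem_inter] at hi
      simp [ind_apply, wt, hi.1, hi.2]
    · intro i _ hi
      rw [mem_inter] at hi
      by_cases h1 : i ∈ A <;> by_cases h2 : i ∈ Y <;> simp_all [ind_apply, wt]
  have h2 : ∑ i, (ind A i • wt Y i).2 = #(A \ Y) := by
    rw [Finset.card_eq_sum_ones, ← Finset.sum_subset (Finset.subset_univ (A \ Y))]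
    · refine Finset.sum_congr rfl fun i hi => ?_
      rw [mem_sdiff] at hi
      simp [ind_apply, wt, hi.1, hi.2]
    · intro i _ hi
      rw [mem_sdiff] at hi
      by_cases h1 : i ∈ A <;> by_cases h2 : i ∈ Y <;> simp_all [ind_apply, wt]
  ext
  · rw [Prod.fst_sum, h1]
  · rw [Prod.snd_sum, h2]

/-- sets of a given bidegree -/
def bi (Y : Finset ι) (p q : ℕ) : Finset (Finset ι) :=
  univ.filter (fun U => #(U ∩ Y) = p ∧ #(U \ Y) = q)

theorem mem_bi {Y U : Finset ι} {p q : ℕ} : U ∈ bi Y p q ↔ #(U ∩ Y) = p ∧ #(U \ Y) = q := by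
  simp [bi]

theorem card_bi_le (Y : Finset ι) (p q : ℕ) :
    #(bi Y p q) ≤ (#Y).choose p * (#Yᶜ).choose q := by
  rw [← card_powersetCard, ← card_powersetCard, ← card_product]
  refine Finset.card_le_card_of_injOn (fun U => (U ∩ Y, U \ Y)) ?_ ?_
  · intro U hU
    have hU' := mem_bi.1 (Finset.mem_coe.1 hU)
    simp only [coe_product, Set.mem_prod, mem_coe, mem_powersetCard]
    refine ⟨⟨inter_subset_right, hU'.1⟩, ?_, hU'.2⟩
    intro i hi
    rw [mem_sdiff] at hi
    simpa using hi.2
  · intro U _ U' _ h
    have h1 : U ∩ Y = U' ∩ Y := congrArg Prod.fst h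
    have h2 : U \ Y = U' \ Y := congrArg Prod.snd h
    rw [← sdiff_union_inter U Y, ← sdiff_union_inter U' Y, h1, h2]

omit [Fintype ι] in
theorem card_split {Y S U : Finset ι} (h : S ⊆ U) :
    #(U ∩ Y) = #(S ∩ Y) + #((U \ S) ∩ Y) ∧ #(U \ Y) = #(S \ Y) + #((U \ S) \ Y) := by
  constructor
  · rw [← card_union_of_disjoint]
    · congr 1
      ext i
      have := @h i
      simp only [mem_inter, mem_union, mem_sdiff]
      tauto
    · rw [disjoint_left]
      intro i h1 h2
      simp only [mem_inter, mem_sdiff] at h1 h2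
      tauto
  · rw [← card_union_of_disjoint]
    · congr 1
      ext i
      have := @h i
      simp only [mem_union, mem_sdiff]
      tauto
    · rw [disjoint_left]
      intro i h1 h2
      simp only [mem_sdiff] at h1 h2
      tauto

open Classical in
/-- the matrix of multiplication by `f` modulo squares between two bidegrees -/
noncomputable def Nm (Y : Finset ι) (p q k k' : ℕ) (f : MvPolynomial ι K) :
    Matrix (Finset ι) (Finset ι) K :=
  Matrix.of fun S T =>
    if S ∈ bi Y p q ∧ T ∈ bi Y (p + k) (q + k') ∧ S ⊆ T then cf f (T \ S) else 0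

theorem Nm_add (Y : Finset ι) (p q k k' : ℕ) (f g : MvPolynomial ι K) :
    Nm Y p q k k' (f + g) = Nm Y p q k k' f + Nm Y p q k k' g := by
  ext S T
  simp only [Nm, Matrix.of_apply, Matrix.add_apply]
  split_ifs <;> simp [cf]

theorem Nm_zero (Y : Finset ι) (p q k k' : ℕ) :
    Nm Y p q k k' (0 : MvPolynomial ι K) = 0 := by
  ext S T
  simp [Nm, cf]

theorem Nm_eq_zero {Y : Finset ι} {p q k k' : ℕ} {f : MvPolynomial ι K} {m : ℕ × ℕ}
    (hf : IsWeightedHomogeneous (wt Y) f m) (hm : m ≠ (k, k')) : Nm Y p q k k' f = 0 := by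
  ext S T
  simp only [Nm, Matrix.of_apply, Matrix.zero_apply]
  split_ifs with h
  · apply hf.coeff_eq_zero
    rw [weight_ind]
    obtain ⟨h1, h2, h3⟩ := h
    rw [mem_bi] at h1 h2
    have := card_split (Y := Y) h3
    intro e
    apply hm
    rw [← e]
    ext <;> simp <;> omega
  · rfl

theorem rank_Nm_mul {Y : Finset ι} {p q k k' i j : ℕ} {g h : MvPolynomial ι K}
    (hg : IsWeightedHomogeneous (wt Y) g (i, j)) :
    (Nm Y p q k k' (g * h)).rank ≤ (#Y).choose (p + i) * (#Yᶜ).choose (q + j) := by
  classical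
  set G : Matrix (Finset ι) (Finset ι) K :=
    Matrix.of fun S U => if S ∈ bi Y p q ∧ S ⊆ U then cf g (U \ S) else 0 with hG
  set H : Matrix (Finset ι) (Finset ι) K :=
    Matrix.of fun U T => if U ∈ bi Y (p + i) (q + j) ∧ T ∈ bi Y (p + k) (q + k') ∧ U ⊆ T
      then cf h (T \ U) else 0 with hH
  have e : Nm Y p q k k' (g * h) = G * H := by
    ext S T
    simp only [Nm, Matrix.of_apply, Matrix.mul_apply, hG, hH]
    split_ifs with hST
    · obtain ⟨h1, h2, h3⟩ := hST
      rw [cf_mul]
      rw [← Finset.sum_subset (Finset.subset_univ (univ.filter fun U => S ⊆ U ∧ U ⊆ T))]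
      · refine Finset.sum_bij (fun B _ => S ∪ B) ?_ ?_ ?_ ?_
        · intro B hB
          rw [mem_powerset] at hB
          simp only [mem_filter, mem_univ, true_and]
          exact ⟨subset_union_left, union_subset h3 (hB.trans sdiff_subset)⟩
        · intro B hB B' hB' hh
          rw [mem_powerset] at hB hB'
          ext x
          have a1 := @hB x
          have a2 := @hB' x
          have a3 : x ∈ S ∪ B ↔ x ∈ S ∪ B' := by rw [hh]
          simp only [mem_sdiff, mem_union] at a1 a2 a3
          tauto
        · intro U hU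
          simp only [mem_filter, mem_univ, true_and] at hU
          refine ⟨U \ S, ?_, ?_⟩
          · rw [mem_powerset]; exact sdiff_subset_sdiff hU.2 (Subset.refl _)
          · exact union_sdiff_of_subset hU.1
        · intro B hB
          rw [mem_powerset] at hB
          have e1 : (S ∪ B) \ S = B := by
            ext x
            have a1 := @hB x
            simp only [mem_sdiff, mem_union] at a1 ⊢
            tauto
          have e2 : T \ (S ∪ B) = (T \ S) \ B := by
            ext x
            simp only [mem_sdiff, mem_union]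
            tauto
          have hsub : S ∪ B ⊆ T := union_subset h3 (hB.trans sdiff_subset)
          rw [if_pos ⟨h1, subset_union_left⟩, e1]
          by_cases hc : cf g B = 0
          · simp [hc]
          · have hw := hg hc
            rw [weight_ind] at hw
            have := card_split (Y := Y) (subset_union_left : S ⊆ S ∪ B)
            rw [e1] at this
            rw [mem_bi] at h1
            have hw1 : #(B ∩ Y) = i := congrArg Prod.fst hw
            have hw2 : #(B \ Y) = j := congrArg Prod.snd hw
            rw [if_pos ⟨mem_bi.2 ⟨by omega, by omega⟩, h2, hsub⟩, e2]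
      · intro U _ hU
        simp only [mem_filter, mem_univ, true_and] at hU
        by_cases a1 : S ⊆ U
        · have a2 : ¬ U ⊆ T := fun a2 => hU ⟨a1, a2⟩
          simp [a2]
        · simp [a1]
    · symm
      refine Finset.sum_eq_zero fun U _ => ?_
      split_ifs with a1 a2
      · exact absurd ⟨a1.1, a2.2.1, a1.2.trans a2.2.2⟩ hST
      · simp
      · simp
      · simp
  rw [e]
  refine (Matrix.rank_mul_le_right _ _).trans (le_trans ?_ (card_bi_le Y _ _))
  apply Matrix.rank_le_card_of_support_subset
  intro U hU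
  by_contra hn
  apply hU
  ext T
  have hn' : U ∉ bi Y (p + i) (q + j) := fun h => hn (Finset.mem_coe.2 h)
  simp [Matrix.row, hH, hn']

/-- weighted decompositions into products of two bihomogeneous polynomials -/
inductive Dec (Y : Finset ι) (α β : ℝ) : MvPolynomial ι K → ℝ → Prop
  | base (g h : MvPolynomial ι K) (i j i' j' : ℕ)
      (hg : IsWeightedHomogeneous (wt Y) g (i, j)) (hh : IsWeightedHomogeneous (wt Y) h (i', j')) :
      Dec Y α β (g * h) (α ^ i * β ^ j / (α ^ i' * β ^ j'))
  | add {f f' : MvPolynomial ι K} {W W' : ℝ} : Dec Y α β f W → Dec Y α β f' W' →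
      Dec Y α β (f + f') (W + W')
  | zero : Dec Y α β 0 0
  | mono {f : MvPolynomial ι K} {W W' : ℝ} : Dec Y α β f W → W ≤ W' → Dec Y α β f W'

variable {Y : Finset ι} {α β : ℝ}

omit [Fintype ι] in
theorem Dec.nonneg (hα : 0 < α) (hβ : 0 < β) {f : MvPolynomial ι K} {W : ℝ}
    (h : Dec Y α β f W) : 0 ≤ W := by
  induction h with
  | base => positivity
  | add _ _ h1 h2 => positivity
  | zero => exact le_rfl
  | mono _ h1 h2 => linarith

omit [Fintype ι] in
theorem Dec.mul (hα : 0 < α) (hβ : 0 < β) {f f' : MvPolynomial ι K} {W W' : ℝ}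
    (h : Dec Y α β f W) (h' : Dec Y α β f' W') : Dec Y α β (f * f') (W * W') := by
  induction h with
  | base g h i j i' j' hg hh =>
    induction h' with
    | base g2 h2 i2 j2 i2' j2' hg2 hh2 =>
      have := Dec.base (Y := Y) (α := α) (β := β) (g * g2) (h * h2) (i + i2) (j + j2) (i' + i2')
        (j' + j2') (hg.mul hg2) (hh.mul hh2)
      have e1 : g * h * (g2 * h2) = g * g2 * (h * h2) := by ring
      rw [e1]
      refine this.mono (le_of_eq ?_)
      rw [pow_add, pow_add, pow_add, pow_add]
      field_simp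
    | add _ _ ih1 ih2 =>
      rw [mul_add, mul_add]; exact ih1.add ih2
    | zero => rw [mul_zero, mul_zero]; exact Dec.zero
    | mono _ h1 ih => exact ih.mono (mul_le_mul_of_nonneg_left h1 (by positivity))
  | add _ _ ih1 ih2 => rw [add_mul, add_mul]; exact ih1.add ih2
  | zero => rw [zero_mul, zero_mul]; exact Dec.zero
  | mono _ h1 ih => exact ih.mono (mul_le_mul_of_nonneg_right h1 (h'.nonneg hα hβ))

omit [Fintype ι] in
theorem Dec.one : Dec Y α β (1 : MvPolynomial ι K) 1 := by
  have := Dec.base (Y := Y) (α := α) (β := β) (1 : MvPolynomial ι K) 1 0 0 0 0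
    (isWeightedHomogeneous_one K _) (isWeightedHomogeneous_one K _)
  simpa using this

omit [Fintype ι] in
theorem Dec.smul (hα : 0 < α) (hβ : 0 < β) {f : MvPolynomial ι K} {W : ℝ} (c : K)
    (h : Dec Y α β f W) : Dec Y α β (c • f) W := by
  have h1 := Dec.base (Y := Y) (α := α) (β := β) (C c : MvPolynomial ι K) 1 0 0 0 0
    (isWeightedHomogeneous_C _ c) (isWeightedHomogeneous_one K _)
  have := h1.mul hα hβ h
  simpa [smul_eq_C_mul] using this

omit [Fintype ι] in
theorem Dec.sum {κ : Type*} (s : Finset κ) (f : κ → MvPolynomial ι K) (W : κ → ℝ)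
    (h : ∀ x ∈ s, Dec Y α β (f x) (W x)) : Dec Y α β (∑ x ∈ s, f x) (∑ x ∈ s, W x) := by
  classical
  induction s using Finset.induction_on with
  | empty => simpa using Dec.zero
  | insert a s ha ih =>
    rw [sum_insert ha, sum_insert ha]
    exact (h a (mem_insert_self _ _)).add (ih fun x hx => h x (mem_insert_of_mem hx))

omit [Fintype ι] in
theorem Dec.multiset_prod (hα : 0 < α) (hβ : 0 < β) {κ : Type*} (s : Multiset κ)
    (f : κ → MvPolynomial ι K) (e : κ → ℕ) (lam : ℝ)
    (h : ∀ x ∈ s, Dec Y α β (f x) (lam ^ e x)) :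
    Dec Y α β (s.map f).prod (lam ^ (s.map e).sum) := by
  induction s using Multiset.induction_on with
  | empty => simpa using Dec.one
  | cons a s ih =>
    simp only [Multiset.map_cons, Multiset.prod_cons, Multiset.sum_cons, pow_add]
    exact (h a (Multiset.mem_cons_self _ _)).mul hα hβ
      (ih fun x hx => h x (Multiset.mem_cons_of_mem hx))

theorem Dec.of_homog (hα : 0 < α) (hβ : 0 < β) {f : MvPolynomial ι K} {e : ℕ}
    (hf : f.IsHomogeneous e) :
    Dec Y α β f (∑ i ∈ range (e + 1), min (α ^ i * β ^ (e - i)) (α ^ i * β ^ (e - i))⁻¹) := by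
  have e1 : f = ∑ i ∈ range (e + 1), weightedHomogeneousComponent (wt Y) (i, e - i) f := by
    ext d
    rw [coeff_sum]
    simp only [coeff_weightedHomogeneousComponent]
    by_cases hd : coeff d f = 0
    · simp [hd]
    · have h1 : Finsupp.weight (1 : ι → ℕ) d = e := hf hd
      have h2 : (Finsupp.weight (wt Y) d).1 + (Finsupp.weight (wt Y) d).2 = e := by
        rw [← h1, Finsupp.weight_eq_sum, Finsupp.weight_eq_sum, Prod.fst_sum, Prod.snd_sum,
          ← Finset.sum_add_distrib]
        refine Finset.sum_congr rfl fun i _ => ?_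
        by_cases hi : i ∈ Y <;> simp [wt, hi]
      rw [Finset.sum_eq_single (Finsupp.weight (wt Y) d).1]
      · rw [if_pos]
        ext
        · rfl
        · simp only; omega
      · intro b _ hb
        rw [if_neg]
        intro hh
        exact hb (by rw [hh])
      · intro hh
        exact absurd (mem_range.2 (by omega)) hh
  conv_lhs => rw [e1]
  refine Dec.sum _ _ _ fun i _ => ?_
  have hc := weightedHomogeneousComponent_isWeightedHomogeneous (w := wt Y) (i, e - i) f
  rcases le_total (α ^ i * β ^ (e - i)) (α ^ i * β ^ (e - i))⁻¹ with h | h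
  · rw [min_eq_left h]
    have := Dec.base (Y := Y) (α := α) (β := β) _ 1 i (e - i) 0 0 hc
      (isWeightedHomogeneous_one K _)
    simpa using this
  · rw [min_eq_right h]
    have := Dec.base (Y := Y) (α := α) (β := β) 1 _ 0 0 i (e - i)
      (isWeightedHomogeneous_one K _) hc
    simpa using this

theorem Dec.rank_le (hα : 0 < α) (hβ : 0 < β) {p q k k' : ℕ} {D : ℝ} (hD0 : 0 ≤ D)
    (hD : ∀ i j, i ≤ k → j ≤ k' →
      (((#Y).choose (p + i) * (#Yᶜ).choose (q + j) : ℕ) : ℝ) ≤ D * (α ^ i * β ^ j) ^ 2)
    {f : MvPolynomial ι K} {W : ℝ} (h : Dec Y α β f W) :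
    ((Nm Y p q k k' f).rank : ℝ) ≤ D * (α ^ k * β ^ k') * W := by
  induction h with
  | base g h i j i' j' hg hh =>
    by_cases hm : ((i, j) + (i', j') : ℕ × ℕ) = (k, k')
    · have h1 : i + i' = k := congrArg Prod.fst hm
      have h2 : j + j' = k' := congrArg Prod.snd hm
      refine le_trans (Nat.cast_le.2 (rank_Nm_mul hg)) ((hD i j (by omega) (by omega)).trans
        (le_of_eq ?_))
      rw [← h1, ← h2, pow_add, pow_add]
      field_simp
    · rw [Nm_eq_zero (hg.mul hh) hm, Matrix.rank_zero]
      simp only [Nat.cast_zero]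
      positivity
  | add _ _ ih1 ih2 =>
    rw [Nm_add, mul_add]
    refine le_trans (Nat.cast_le.2 (rank_add_le' _ _)) ?_
    push_cast
    linarith
  | zero => rw [Nm_zero, Matrix.rank_zero]; simp
  | mono _ h1 ih => exact ih.trans (mul_le_mul_of_nonneg_left h1 (by positivity))

end Crest.Agent.Imm
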