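import Mathlib
import Crest.Agent.Imm.Conv

namespace Crest.Agent.Imm

open Finset

theorem choose_sub_le (N p r : ℕ) (hr : r ≤ N) (hp : p ≤ N) :
    ((N - r).choose p : ℝ) ≤ N.choose p * (((N : ℝ) - p) / N) ^ r := by
  induction r with
  | zero => simp
  | succ r ih =>
    have ih := ih (by omega)
    obtain ⟨M, hM⟩ : ∃ M, N - r = M + 1 := ⟨N - r - 1, by omega⟩
    have e1 : N - (r + 1) = M := by omega
    rw [e1]
    rw [hM] at ih
    have hN : (0 : ℝ) < N := by exact_mod_cast (by omega : 0 < N)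
    have hpN : (p : ℝ) ≤ N := by exact_mod_cast hp
    have h1 : (M.choose p : ℝ) ≤ (M + 1).choose p * (((N : ℝ) - p) / N) := by
      by_cases hpM : p ≤ M
      · have h2 := Nat.choose_mul_succ_eq M p
        have h3 : (M.choose p : ℝ) * (M + 1) = (M + 1).choose p * ((M : ℝ) + 1 - p) := by
          have := congrArg (Nat.cast : ℕ → ℝ) h2
          push_cast [Nat.cast_sub (by omega : p ≤ M + 1)] at this
          exact this
        have hMN : (M : ℝ) + 1 ≤ N := by exact_mod_cast (by omega : M + 1 ≤ N)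
        have h4 : (M.choose p : ℝ) = (M + 1).choose p * (((M : ℝ) + 1 - p) / (M + 1)) := by
          rw [← mul_div_assoc, eq_div_iff (by positivity), h3]
        rw [h4]
        gcongr ?_ * ?_
        rw [div_le_div_iff₀ (by positivity) hN]
        have : (0 : ℝ) ≤ p := by positivity
        nlinarith
      · rw [Nat.choose_eq_zero_of_lt (by omega : M < p)]
        have : 0 ≤ ((N : ℝ) - p) / N := div_nonneg (by linarith) hN.le
        simp only [Nat.cast_zero]
        positivity
    have h0 : 0 ≤ ((N : ℝ) - p) / N := div_nonneg (by linarith) hN.le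
    calc (M.choose p : ℝ) ≤ (M + 1).choose p * (((N : ℝ) - p) / N) := h1
      _ ≤ N.choose p * (((N : ℝ) - p) / N) ^ r * (((N : ℝ) - p) / N) := by gcongr
      _ = _ := by ring

theorem choose_sub_ge (N p r k : ℕ) (hr : r ≤ k) (hp : p + k ≤ N) :
    N.choose p * (((N : ℝ) - p - k) / N) ^ r ≤ ((N - r).choose p : ℝ) := by
  induction r with
  | zero => simp
  | succ r ih =>
    have ih := ih (by omega)
    obtain ⟨M, hM⟩ : ∃ M, N - r = M + 1 := ⟨N - r - 1, by omega⟩
    have e1 : N - (r + 1) = M := by omega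
    rw [e1]
    rw [hM] at ih
    have hN : (0 : ℝ) < N := by exact_mod_cast (by omega : 0 < N)
    have hpN : (p : ℝ) + k ≤ N := by exact_mod_cast hp
    have h0 : 0 ≤ ((N : ℝ) - p - k) / N := div_nonneg (by linarith) hN.le
    have h1 : (M + 1).choose p * (((N : ℝ) - p - k) / N) ≤ (M.choose p : ℝ) := by
      have h2 := Nat.choose_mul_succ_eq M p
      have h3 : (M.choose p : ℝ) * (M + 1) = (M + 1).choose p * ((M : ℝ) + 1 - p) := by
        have := congrArg (Nat.cast : ℕ → ℝ) h2
        push_cast [Nat.cast_sub (by omega : p ≤ M + 1)] at this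
        exact this
      have hMN : (M : ℝ) + 1 ≤ N := by exact_mod_cast (by omega : M + 1 ≤ N)
      have hMN' : (N : ℝ) ≤ M + 1 + k := by exact_mod_cast (by omega : N ≤ M + 1 + k)
      have hMp : (p : ℝ) ≤ M + 1 := by exact_mod_cast (by omega : p ≤ M + 1)
      have h4 : (M.choose p : ℝ) = (M + 1).choose p * (((M : ℝ) + 1 - p) / (M + 1)) := by
        rw [← mul_div_assoc, eq_div_iff (by positivity), h3]
      rw [h4]
      gcongr ?_ * ?_
      exact div_le_div₀ (by linarith) (by linarith) (by positivity) hMN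
    calc N.choose p * (((N : ℝ) - p - k) / N) ^ (r + 1)
        = N.choose p * (((N : ℝ) - p - k) / N) ^ r * (((N : ℝ) - p - k) / N) := by ring
      _ ≤ (M + 1).choose p * (((N : ℝ) - p - k) / N) := by gcongr
      _ ≤ _ := h1

theorem choose_sub_sub_le (N b r : ℕ) (hr : r ≤ b) (hb : b ≤ N) :
    ((N - r).choose (b - r) : ℝ) ≤ N.choose b * ((b : ℝ) / N) ^ r := by
  have h := choose_sub_le N (N - b) r (by omega) (by omega)
  rw [Nat.choose_symm hb, Nat.cast_sub hb, sub_sub_cancel] at h
  have e : (N - r).choose (b - r) = (N - r).choose (N - b) := by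
    rw [← Nat.choose_symm (by omega : b - r ≤ N - r)]
    congr 1
    omega
  rw [e]
  exact h

theorem choose_add_le (N p i : ℕ) (hp0 : 0 < p) (hp : p ≤ N) :
    (N.choose (p + i) : ℝ) ≤ N.choose p * (((N : ℝ) - p) / p) ^ i := by
  induction i with
  | zero => simp
  | succ i ih =>
    have hp' : (0 : ℝ) < p := by exact_mod_cast hp0
    have hpN : (p : ℝ) ≤ N := by exact_mod_cast hp
    have h0 : 0 ≤ ((N : ℝ) - p) / p := div_nonneg (by linarith) hp'.le
    have h1 : (N.choose (p + (i + 1)) : ℝ) ≤ N.choose (p + i) * (((N : ℝ) - p) / p) := by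
      by_cases hN : p + i ≤ N
      · have h2 := Nat.choose_succ_right_eq N (p + i)
        have h3 : (N.choose (p + (i + 1)) : ℝ) * (p + i + 1) =
            N.choose (p + i) * ((N : ℝ) - (p + i)) := by
          have := congrArg (Nat.cast : ℕ → ℝ) h2
          push_cast [Nat.cast_sub hN] at this
          exact this
        have h4 : (N.choose (p + (i + 1)) : ℝ) =
            N.choose (p + i) * (((N : ℝ) - (p + i)) / (p + i + 1)) := by
          rw [← mul_div_assoc, eq_div_iff (by positivity), h3]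
        rw [h4]
        gcongr ?_ * ?_
        have : (0 : ℝ) ≤ i := by positivity
        exact div_le_div₀ (by linarith) (by linarith) hp' (by linarith)
      · rw [Nat.choose_eq_zero_of_lt (by omega : N < p + (i + 1))]
        simp only [Nat.cast_zero]
        positivity
    calc _ ≤ N.choose (p + i) * (((N : ℝ) - p) / p) := h1
      _ ≤ N.choose p * (((N : ℝ) - p) / p) ^ i * (((N : ℝ) - p) / p) := by gcongr
      _ = _ := by ring

variable {ι : Type*} [Fintype ι] [DecidableEq ι]

theorem card_avoid_ge (Y E : Finset ι) (p q : ℕ) :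
    (#Y - #(E ∩ Y)).choose p * (#Yᶜ - #(E \ Y)).choose q ≤
      #((bi Y p q).filter fun S => Disjoint S E) := by
  have e1 : #Y - #(E ∩ Y) = #(Y \ E) := by
    rw [Finset.card_sdiff]
  have e2 : #Yᶜ - #(E \ Y) = #(Yᶜ \ E) := by
    rw [Finset.card_sdiff (s := E) (t := Yᶜ), show E ∩ Yᶜ = E \ Y by ext x; simp]
  rw [e1, e2, ← card_powersetCard, ← card_powersetCard, ← card_product]
  have key : ∀ x ∈ powersetCard p (Y \ E) ×ˢ powersetCard q (Yᶜ \ E),
      (x.1 ∪ x.2) ∩ Y = x.1 ∧ (x.1 ∪ x.2) \ Y = x.2 := by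
    intro x hx
    simp only [mem_product, mem_powersetCard] at hx
    obtain ⟨⟨h1, _⟩, h2, _⟩ := hx
    constructor <;> ext i <;> have a1 := @h1 i <;> have a2 := @h2 i <;>
      simp only [mem_sdiff, mem_compl, mem_inter, mem_union] at a1 a2 ⊢ <;> tauto
  refine Finset.card_le_card_of_injOn (fun x => x.1 ∪ x.2) ?_ ?_
  · intro x hx
    have hx' := Finset.mem_coe.1 hx
    have hk := key x hx'
    simp only [mem_product, mem_powersetCard] at hx'
    obtain ⟨⟨h1, h1'⟩, h2, h2'⟩ := hx'
    simp only [coe_filter, Set.mem_ofPred_eq, mem_bi, hk.1, hk.2, h1', h2', true_and]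
    rw [disjoint_left]
    intro i hi
    have a1 := @h1 i
    have a2 := @h2 i
    simp only [mem_sdiff, mem_compl, mem_union] at a1 a2 hi
    tauto
  · intro x hx y hy h
    have h1 := key x (Finset.mem_coe.1 hx)
    have h2 := key y (Finset.mem_coe.1 hy)
    have h' : x.1 ∪ x.2 = y.1 ∪ y.2 := h
    ext1
    · rw [← h1.1, h', h2.1]
    · rw [← h1.2, h', h2.2]

theorem card_avoid_le (Y A B : Finset ι) (p q : ℕ) (hA : A ⊆ Y) (hB : B ⊆ Yᶜ) (hp : p ≤ #Y)
    (hq : q ≤ #Yᶜ) :
    (#((bi Y p q).filter fun S => Disjoint S A ∧ B ⊆ S) : ℝ) ≤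
      (#Y).choose p * (#Yᶜ).choose q * ((((#Y : ℕ) : ℝ) - p) / #Y) ^ #A *
        ((q : ℝ) / #Yᶜ) ^ #B := by
  have hp' : (p : ℝ) ≤ #Y := by exact_mod_cast hp
  have h0 : 0 ≤ ((((#Y : ℕ) : ℝ) - p) / #Y) := div_nonneg (by linarith) (by positivity)
  have hBS : ∀ S : Finset ι, B ⊆ S → B ⊆ S \ Y := by
    intro S hS i hi
    have a1 := hB hi
    simp only [mem_sdiff, mem_compl] at a1 ⊢
    exact ⟨hS hi, a1⟩
  by_cases hBq : #B ≤ q
  · have h1 : #((bi Y p q).filter fun S => Disjoint S A ∧ B ⊆ S) ≤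
        (#Y - #A).choose p * (#Yᶜ - #B).choose (q - #B) := by
      rw [← card_sdiff_of_subset hA, ← card_sdiff_of_subset hB, ← card_powersetCard,
        ← card_powersetCard, ← card_product]
      refine Finset.card_le_card_of_injOn (fun S => (S ∩ Y, (S \ Y) \ B)) ?_ ?_
      · intro S hS
        simp only [coe_filter, Set.mem_ofPred_eq, mem_bi] at hS
        obtain ⟨⟨h1, h2⟩, h3, h4⟩ := hS
        simp only [coe_product, Set.mem_prod, mem_coe, mem_powersetCard]
        refine ⟨⟨?_, h1⟩, ?_, ?_⟩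
        · intro i hi
          rw [mem_inter] at hi
          exact mem_sdiff.2 ⟨hi.2, disjoint_left.1 h3 hi.1⟩
        · intro i hi
          simp only [mem_sdiff, mem_compl] at hi ⊢
          tauto
        · rw [card_sdiff_of_subset (hBS S h4), h2]
      · intro S hS S' hS' h
        simp only [coe_filter, Set.mem_ofPred_eq] at hS hS'
        have h1 : S ∩ Y = S' ∩ Y := congrArg Prod.fst h
        have h2 : (S \ Y) \ B = (S' \ Y) \ B := congrArg Prod.snd h
        have h3 : S \ Y = S' \ Y := by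
          rw [← sdiff_union_of_subset (hBS S hS.2.2), h2, sdiff_union_of_subset (hBS S' hS'.2.2)]
        rw [← sdiff_union_inter S Y, ← sdiff_union_inter S' Y, h1, h3]
    have h2 := choose_sub_le (#Y) p (#A) (card_le_card hA) hp
    have h3 := choose_sub_sub_le (#Yᶜ) q (#B) hBq hq
    calc _ ≤ (((#Y - #A).choose p * (#Yᶜ - #B).choose (q - #B) : ℕ) : ℝ) := by exact_mod_cast h1
      _ ≤ ((#Y).choose p * ((((#Y : ℕ) : ℝ) - p) / #Y) ^ #A) *
          ((#Yᶜ).choose q * ((q : ℝ) / #Yᶜ) ^ #B) := by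
        push_cast
        gcongr
      _ = _ := by ring
  · have : (bi Y p q).filter (fun S => Disjoint S A ∧ B ⊆ S) = ∅ := by
      rw [filter_eq_empty_iff]
      intro S hS h
      rw [mem_bi] at hS
      have := card_le_card (hBS S h.2)
      omega
    rw [this]
    simp only [card_empty, Nat.cast_zero]
    positivity

end Crest.Agent.Imm
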