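import Mathlib

namespace Crest.Agent.Imm

open Finset

variable {V : Type*} [Fintype V] [DecidableEq V]

/-- paths with prescribed ends -/
def paths (m : ℕ) (i j : V) : Finset (Fin (m + 1) → V) :=
  univ.filter fun σ => σ 0 = i ∧ σ (Fin.last m) = j

theorem mem_paths {m : ℕ} {i j : V} {σ : Fin (m + 1) → V} :
    σ ∈ paths m i j ↔ σ 0 = i ∧ σ (Fin.last m) = j := by
  simp [paths]

theorem prod_entry {A : Type*} [CommSemiring A] (m : ℕ) (M : Fin m → Matrix V V A) (i j : V) :
    (List.ofFn M).prod i j = ∑ σ ∈ paths m i j, ∏ l : Fin m, M l (σ l.castSucc) (σ l.succ) := by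
  induction m generalizing i with
  | zero =>
    simp only [List.ofFn_zero, List.prod_nil, univ_eq_empty, prod_empty, sum_const]
    by_cases h : i = j
    · subst h
      have : paths 0 i i = {fun _ => i} := by
        ext σ
        simp only [mem_paths, mem_singleton]
        constructor
        · intro h
          funext x
          rw [Fin.fin_one_eq_zero x]
          exact h.1
        · rintro rfl
          simp
      simp [this]
    · have : paths 0 i j = ∅ := by
        ext σ
        simp only [mem_paths, notMem_empty, iff_false]
        rintro ⟨h1, h2⟩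
        exact h (h1.symm.trans h2)
      simp [this, h]
  | succ m ih =>
    rw [List.ofFn_succ, List.prod_cons, Matrix.mul_apply]
    simp only [ih]
    unfold paths
    symm
    rw [Finset.sum_filter, ← (Fin.consEquiv fun _ : Fin (m + 2) => V).sum_comp,
      Fintype.sum_prod_type, Finset.sum_eq_single i]
    · simp only [Finset.sum_filter, Finset.mul_sum]
      rw [Finset.sum_comm]
      refine Finset.sum_congr rfl fun σ _ => ?_
      rw [Finset.sum_eq_single (σ 0)]
      · have e1 : Fin.last (m + 1) = (Fin.last m).succ := rfl
        simp only [Fin.consEquiv_apply, Fin.cons_zero, true_and, e1, Fin.cons_succ,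
          Fin.prod_univ_succ, Fin.castSucc_zero]
        split_ifs with h
        · congr 1
        · simp
      · intro b _ hb
        rw [if_neg, mul_zero]
        rintro ⟨h, _⟩
        exact hb h.symm
      · simp
    · intro b _ hb
      refine Finset.sum_eq_zero fun σ _ => ?_
      rw [if_neg]
      rintro ⟨h, _⟩
      exact hb (by simpa using h)
    · simp

theorem card_paths (m : ℕ) (i j : V) : #(paths (m + 1) i j) = Fintype.card V ^ m := by
  have h := prod_entry (A := ℕ) (m + 1) (fun _ => (Matrix.of fun _ _ => 1 : Matrix V V ℕ)) i j
  simp only [Matrix.of_apply, prod_const_one, sum_const, smul_eq_mul, mul_one] at h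
  rw [← h]
  clear h
  induction m generalizing i with
  | zero => simp
  | succ m ih =>
    rw [List.ofFn_succ, List.prod_cons, Matrix.mul_apply]
    simp only [ih]
    simp [pow_succ']

end Crest.Agent.Imm
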