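import Mathlib
import Crest.Agent.Imm.Binom
import Crest.Agent.Imm.Path

namespace Crest.Agent.Imm

open Finset MvPolynomial

variable {N : ℕ} {V : Type*} [Fintype V] [DecidableEq V]

/-- the edge of a path in a layer -/
def edge (σ : Fin (N + 1) → V) (l : Fin N) : Fin N × V × V := (l, σ l.castSucc, σ l.succ)

/-- the edge set of a path -/
def es (σ : Fin (N + 1) → V) : Finset (Fin N × V × V) := univ.image (edge σ)

omit [Fintype V] [DecidableEq V] in
theorem edge_eq {σ τ : Fin (N + 1) → V} {l l' : Fin N} (h : edge σ l = edge τ l') : l = l' :=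
  congrArg Prod.fst h

omit [Fintype V] [DecidableEq V] in
theorem edge_inj (σ : Fin (N + 1) → V) : Function.Injective (edge σ) := fun _ _ h => edge_eq h

omit [Fintype V] in
theorem edge_mem_es {σ τ : Fin (N + 1) → V} {l : Fin N} :
    edge τ l ∈ es σ ↔ edge τ l = edge σ l := by
  simp only [es, mem_image, mem_univ, true_and]
  constructor
  · rintro ⟨l', h⟩
    have := edge_eq h
    subst this
    exact h.symm
  · intro h
    exact ⟨l, h.symm⟩

/-- the variables of a set of layers -/
def Ys (V : Type*) [Fintype V] (c : Finset (Fin N)) : Finset (Fin N × V × V) := c ×ˢ univ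

omit [DecidableEq V] in
theorem mem_Ys {c : Finset (Fin N)} {x : Fin N × V × V} : x ∈ Ys V c ↔ x.1 ∈ c := by
  simp [Ys]

omit [DecidableEq V] in
theorem card_Ys (c : Finset (Fin N)) : #(Ys V c) = #c * Fintype.card V ^ 2 := by
  simp [Ys, sq]

theorem compl_Ys (c : Finset (Fin N)) : (Ys V c)ᶜ = Ys V cᶜ := by
  ext x
  simp [mem_Ys]

theorem card_es_inter (c : Finset (Fin N)) (σ : Fin (N + 1) → V) : #(es σ ∩ Ys V c) = #c := by
  rw [← card_image_of_injective c (edge_inj σ)]
  congr 1
  ext x
  simp only [es, mem_inter, mem_image, mem_univ, true_and, mem_Ys]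
  constructor
  · rintro ⟨⟨l, rfl⟩, h⟩
    exact ⟨l, h, rfl⟩
  · rintro ⟨l, h, rfl⟩
    exact ⟨⟨l, rfl⟩, h⟩

theorem card_es_sdiff (c : Finset (Fin N)) (σ : Fin (N + 1) → V) : #(es σ \ Ys V c) = #cᶜ := by
  rw [← card_es_inter cᶜ σ, ← compl_Ys]
  congr 1
  ext x
  simp

/-- the path polynomial -/
noncomputable def pathPoly (K : Type*) [Field K] (N : ℕ) (z : V) :
    MvPolynomial (Fin N × V × V) K :=
  ∑ σ ∈ paths N z z, ∏ l, X (edge σ l)

theorem prod_X_eq {ι K : Type*} [DecidableEq ι] [Field K] (A : Finset ι) :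
    (∏ x ∈ A, X x : MvPolynomial ι K) = monomial (ind A) 1 := by
  induction A using Finset.induction_on with
  | empty =>
    have : ind (∅ : Finset ι) = 0 := by ext; simp [ind_apply]
    simp [this]
  | insert a s ha ih =>
    rw [prod_insert ha, ih, X, monomial_mul, one_mul]
    congr 2
    ext i
    simp only [ind_apply, Finsupp.add_apply, Finsupp.single_apply, mem_insert]
    by_cases h1 : i = a
    · subst h1; simp [ha]
    · have : ¬ a = i := fun h => h1 h.symm
      simp [h1, this]

theorem ind_inj {ι : Type*} [DecidableEq ι] {A B : Finset ι} (h : ind A = ind B) : A = B := by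
  ext i
  have := DFunLike.congr_fun h i
  simp only [ind_apply] at this
  by_cases h1 : i ∈ A <;> by_cases h2 : i ∈ B <;> simp_all

theorem cf_pathPoly (K : Type*) [Field K] (z : V) (A : Finset (Fin N × V × V)) :
    cf (pathPoly K N z) A = #((paths N z z).filter fun σ => es σ = A) := by
  unfold cf pathPoly
  rw [coeff_sum, Finset.card_filter]
  push_cast
  refine Finset.sum_congr rfl fun σ _ => ?_
  have : (∏ l, X (edge σ l) : MvPolynomial (Fin N × V × V) K) = ∏ x ∈ es σ, X x := by
    rw [es, prod_image (edge_inj σ).injOn]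
  rw [this, prod_X_eq, coeff_monomial]
  by_cases h : es σ = A
  · simp [h]
  · rw [if_neg h, if_neg fun h' => h (ind_inj h')]

/-- the incidence relation -/
def Rel (c : Finset (Fin N)) (p q : ℕ) (S : Finset (Fin N × V × V)) (σ : Fin (N + 1) → V)
    (T : Finset (Fin N × V × V)) : Prop :=
  S ∈ bi (Ys V c) p q ∧ Disjoint S (es σ) ∧ T = S ∪ es σ

open Classical in
/-- the integer matrix -/
noncomputable def Fm (c : Finset (Fin N)) (z : V) (p q : ℕ) :
    Matrix (Finset (Fin N × V × V)) (Finset (Fin N × V × V)) ℕ :=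
  Matrix.of fun S T => #((paths N z z).filter fun σ => Rel c p q S σ T)

theorem Nm_pathPoly (K : Type*) [Field K] (c : Finset (Fin N)) (z : V) (p q : ℕ) :
    Nm (Ys V c) p q #c #cᶜ (pathPoly K N z) = (Fm c z p q).map (Nat.cast : ℕ → K) := by
  classical
  ext S T
  simp only [Nm, Fm, Matrix.of_apply, Matrix.map_apply]
  split_ifs with h
  · rw [cf_pathPoly]
    congr 2
    ext σ
    simp only [mem_filter, Rel, h.1, true_and]
    refine and_congr_right fun _ => ⟨fun e => ?_, fun e => ?_⟩
    · rw [e]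
      exact ⟨disjoint_sdiff, (union_sdiff_of_subset h.2.2).symm⟩
    · rw [e.2, union_sdiff_cancel_left e.1]
  · symm
    suffices hh : #((paths N z z).filter fun σ => Rel c p q S σ T) = 0 by rw [hh, Nat.cast_zero]
    rw [card_eq_zero, filter_eq_empty_iff]
    rintro σ _ ⟨h1, h2, h3⟩
    apply h
    have hs : S ⊆ T := by rw [h3]; exact subset_union_left
    refine ⟨h1, ?_, hs⟩
    have := card_split (Y := Ys V c) hs
    have e : T \ S = es σ := by rw [h3, union_sdiff_cancel_left h2]
    rw [e, card_es_inter, card_es_sdiff] at this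
    rw [mem_bi] at h1 ⊢
    omega

open Classical in
theorem Fm_cast (c : Finset (Fin N)) (z : V) (p q : ℕ) (S T : Finset (Fin N × V × V)) :
    ((Fm c z p q S T : ℕ) : ℝ) = ∑ σ ∈ paths N z z, if Rel c p q S σ T then 1 else 0 := by
  simp only [Fm, Matrix.of_apply, Finset.card_filter]
  push_cast
  rfl

theorem W2_ge (c : Finset (Fin N)) (z : V) (p q : ℕ) :
    (#(paths N z z) : ℝ) * ((#(Ys V c) - #c).choose p * (#(Ys V c)ᶜ - #cᶜ).choose q) ≤
      ∑ S, ∑ T, ((Fm c z p q S T : ℕ) : ℝ) ^ 2 := by
  classical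
  calc _ ≤ ∑ S, ∑ T, ((Fm c z p q S T : ℕ) : ℝ) := ?_
    _ ≤ _ := by
      refine Finset.sum_le_sum fun S _ => Finset.sum_le_sum fun T _ => ?_
      have : Fm c z p q S T ≤ Fm c z p q S T ^ 2 := Nat.le_self_pow (by norm_num) _
      exact_mod_cast this
  simp only [Fm_cast]
  have : ∀ S : Finset (Fin N × V × V),
      (∑ T, ∑ σ ∈ paths N z z, if Rel c p q S σ T then (1 : ℝ) else 0) =
      ∑ σ ∈ paths N z z, if S ∈ bi (Ys V c) p q ∧ Disjoint S (es σ) then 1 else 0 := by
    intro S
    rw [Finset.sum_comm]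
    refine Finset.sum_congr rfl fun σ _ => ?_
    rw [Finset.sum_eq_single (S ∪ es σ)]
    · simp [Rel]
    · intro T _ hT
      rw [if_neg fun h => hT h.2.2]
    · simp
  simp only [this]
  rw [Finset.sum_comm, ← nsmul_eq_mul, ← Finset.sum_const]
  refine Finset.sum_le_sum fun σ _ => ?_
  have h := card_avoid_ge (Ys V c) (es σ) p q
  rw [card_es_inter, card_es_sdiff] at h
  calc _ ≤ (#((bi (Ys V c) p q).filter fun S => Disjoint S (es σ)) : ℝ) := by exact_mod_cast h
    _ = _ := by
      rw [Finset.sum_boole]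
      congr 2
      ext S
      simp

end Crest.Agent.Imm
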