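import Mathlib
import Crest.Agent.Imm.Count

namespace Crest.Agent.Imm

open Finset MvPolynomial

theorem abel_pot (a g : ℕ → ℝ) (N : ℕ) :
    ∑ l ∈ range N, a (l + 1) * (g (l + 1) - g l) =
      ∑ v ∈ range (N + 1), g v * (a v - a (v + 1)) + g N * a (N + 1) - g 0 * a 0 := by
  induction N with
  | zero => simp; ring
  | succ N ih => rw [sum_range_succ, ih, sum_range_succ _ (N + 1)]; ring

open Classical in
theorem pot_bound {N : ℕ} (c : Finset (Fin N)) (t : ℕ → Prop) (h0 : ¬ t 0) (hN : ¬ t (N + 1))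
    (g : ℕ → ℝ) (G p1 p2 : ℝ) (hp1 : 0 ≤ p1) (hp2 : 0 ≤ p2) (hg : ∀ v, |g v| ≤ G)
    (hY : ∀ l ∈ c, 1 ≤ p1 * Real.exp (g (l + 1) - g l))
    (hZ : ∀ l ∉ c, p2 ≤ Real.exp (g (l + 1) - g l)) :
    p1 ^ #(c.filter fun l : Fin N => ¬ t (l + 1)) * p2 ^ #(cᶜ.filter fun l : Fin N => t (l + 1)) ≤
      p1 ^ #c * ∏ v : Fin (N + 1), if ¬ (t v ↔ t (v + 1)) then Real.exp G else 1 := by
  set a : ℕ → ℝ := fun j => if t j then 1 else 0 with ha
  have e1 : p1 ^ #(c.filter fun l : Fin N => ¬ t (l + 1)) =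
      ∏ l : Fin N, if l ∈ c ∧ ¬ t (l + 1) then p1 else 1 := by
    rw [Finset.prod_ite, prod_const, prod_const_one, mul_one]
    congr 2
    ext; simp
  have e2 : p2 ^ #(cᶜ.filter fun l : Fin N => t (l + 1)) =
      ∏ l : Fin N, if l ∉ c ∧ t (l + 1) then p2 else 1 := by
    rw [Finset.prod_ite, prod_const, prod_const_one, mul_one]
    congr 2
    ext; simp
  have e3 : p1 ^ #c = ∏ l : Fin N, if l ∈ c then p1 else 1 := by
    rw [Finset.prod_ite, prod_const, prod_const_one, mul_one]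
    congr 2
    ext; simp
  have e4 : (∏ l : Fin N, Real.exp (a (l + 1) * (g (l + 1) - g l))) ≤
      ∏ v : Fin (N + 1), if ¬ (t v ↔ t (v + 1)) then Real.exp G else 1 := by
    rw [← Real.exp_sum, Fin.sum_univ_eq_sum_range (fun l => a (l + 1) * (g (l + 1) - g l)),
      abel_pot]
    have a0 : a 0 = 0 := by simp [ha, h0]
    have aN : a (N + 1) = 0 := by simp [ha, hN]
    rw [a0, aN, mul_zero, mul_zero, add_zero, sub_zero,
      ← Fin.sum_univ_eq_sum_range (fun v => g v * (a v - a (v + 1))), Real.exp_sum]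
    refine Finset.prod_le_prod (fun _ _ => (Real.exp_pos _).le) fun v _ => ?_
    have := abs_le.1 (hg v)
    by_cases h1 : t v <;> by_cases h2 : t (v + 1) <;> simp [ha, h1, h2] <;> linarith
  calc _ ≤ p1 ^ #c * ∏ l : Fin N, Real.exp (a (l + 1) * (g (l + 1) - g l)) := by
        rw [e1, e2, e3, ← Finset.prod_mul_distrib, ← Finset.prod_mul_distrib]
        refine Finset.prod_le_prod (fun l _ => ?_) fun l _ => ?_
        · split_ifs <;> positivity
        · by_cases h1 : l ∈ c <;> by_cases h2 : t (l + 1) <;> simp [ha, h1, h2]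
          · exact hY l h1
          · exact hZ l h1
    _ ≤ _ := by gcongr

variable {N : ℕ} {V : Type*} [Fintype V] [DecidableEq V]

/-- two incidences with a common target -/
def QQ (c : Finset (Fin N)) (p q : ℕ) (S S' : Finset (Fin N × V × V))
    (σ τ : Fin (N + 1) → V) : Prop :=
  S ∈ bi (Ys V c) p q ∧ S' ∈ bi (Ys V c) p q ∧ Disjoint S (es σ) ∧ Disjoint S' (es τ) ∧
    S ∪ es σ = S' ∪ es τ

open Classical in
theorem gram_eq (c : Finset (Fin N)) (z : V) (p q : ℕ) (S S' : Finset (Fin N × V × V)) :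
    ∑ T, ((Fm c z p q S T : ℕ) : ℝ) * ((Fm c z p q S' T : ℕ) : ℝ) =
      ∑ σ ∈ paths N z z, ∑ τ ∈ paths N z z, if QQ c p q S S' σ τ then 1 else 0 := by
  simp only [Fm_cast, Finset.sum_mul_sum]
  rw [Finset.sum_comm]
  refine Finset.sum_congr rfl fun σ _ => ?_
  rw [Finset.sum_comm]
  refine Finset.sum_congr rfl fun τ _ => ?_
  rw [Finset.sum_eq_single (S ∪ es σ)]
  · by_cases h : QQ c p q S S' σ τ
    · rw [if_pos h, if_pos ⟨h.1, h.2.2.1, rfl⟩, if_pos ⟨h.2.1, h.2.2.2.1, h.2.2.2.2⟩, mul_one]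
    · rw [if_neg h]
      split_ifs with h1 h2
      · exact absurd ⟨h1.1, h2.1, h1.2.1, h2.2.1, h2.2.2⟩ h
      · simp
      · simp
      · simp
  · intro T _ hT
    rw [if_neg fun h => hT h.2.2, zero_mul]
  · simp

/-- layerwise compatibility of four paths -/
def Compat (σ1 σ2 σ3 σ4 : Fin (N + 1) → V) : Prop :=
  ∀ l, (edge σ2 l = edge σ1 l ∧ edge σ4 l = edge σ3 l) ∨
    (edge σ4 l = edge σ1 l ∧ edge σ2 l = edge σ3 l)

theorem QQ.symm {c : Finset (Fin N)} {p q : ℕ} {S S' : Finset (Fin N × V × V)}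
    {σ τ : Fin (N + 1) → V} (h : QQ c p q S S' σ τ) : QQ c p q S' S τ σ :=
  ⟨h.2.1, h.1, h.2.2.2.1, h.2.2.1, h.2.2.2.2.symm⟩

theorem QQ.mem {c : Finset (Fin N)} {p q : ℕ} {S S' : Finset (Fin N × V × V)}
    {σ τ : Fin (N + 1) → V} (h : QQ c p q S S' σ τ) {l : Fin N} (hl : edge τ l ≠ edge σ l) :
    edge τ l ∈ S := by
  have : edge τ l ∈ S ∪ es σ := by
    rw [h.2.2.2.2]
    exact mem_union_right _ (edge_mem_es.2 rfl)
  rcases mem_union.1 this with h1 | h1
  · exact h1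
  · exact absurd (edge_mem_es.1 h1) hl

theorem QQ.aux {c : Finset (Fin N)} {p q : ℕ} {S S' : Finset (Fin N × V × V)}
    {σ1 σ2 σ3 σ4 : Fin (N + 1) → V} (h : QQ c p q S S' σ1 σ2) (h' : QQ c p q S S' σ4 σ3)
    {l : Fin N} (hl : edge σ2 l ≠ edge σ1 l) : edge σ2 l = edge σ3 l := by
  have h1 := h.mem hl
  have : edge σ2 l ∈ S' ∪ es σ3 := by
    rw [← h'.2.2.2.2]
    exact mem_union_left _ h1
  rcases mem_union.1 this with h2 | h2
  · exact absurd (edge_mem_es.2 rfl) (disjoint_left.1 h.2.2.2.1 h2)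
  · exact edge_mem_es.1 h2

theorem QQ.compat {c : Finset (Fin N)} {p q : ℕ} {S S' : Finset (Fin N × V × V)}
    {σ1 σ2 σ3 σ4 : Fin (N + 1) → V} (h : QQ c p q S S' σ1 σ2) (h' : QQ c p q S S' σ4 σ3) :
    Compat σ1 σ2 σ3 σ4 := by
  intro l
  by_cases h1 : edge σ2 l = edge σ1 l
  · by_cases h2 : edge σ3 l = edge σ4 l
    · exact Or.inl ⟨h1, h2.symm⟩
    · exact Or.inr ⟨h'.symm.aux h.symm (Ne.symm h2), (h'.aux h h2).symm⟩
  · exact Or.inr ⟨(h.symm.aux h'.symm (Ne.symm h1)).symm, h.aux h' h1⟩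

/-- the type of a layer -/
def ty (c : Finset (Fin N)) (σ1 σ2 σ4 : Fin (N + 1) → V) (l : Fin N) : Prop :=
  (l ∈ c ∧ edge σ4 l = edge σ1 l) ∨ (l ∉ c ∧ edge σ2 l ≠ edge σ1 l)

/-- the padded type sequence -/
def ty' (c : Finset (Fin N)) (σ1 σ2 σ4 : Fin (N + 1) → V) (j : ℕ) : Prop :=
  ∃ l : Fin N, (l : ℕ) + 1 = j ∧ ty c σ1 σ2 σ4 l

omit [Fintype V] [DecidableEq V] in
theorem ty'_succ (c : Finset (Fin N)) (σ1 σ2 σ4 : Fin (N + 1) → V) (l : Fin N) :
    ty' c σ1 σ2 σ4 (l + 1) ↔ ty c σ1 σ2 σ4 l := by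
  constructor
  · rintro ⟨l', h1, h2⟩
    have : l' = l := Fin.ext (by omega)
    rwa [this] at h2
  · intro h
    exact ⟨l, rfl, h⟩

omit [Fintype V] [DecidableEq V] in
theorem ty'_zero (c : Finset (Fin N)) (σ1 σ2 σ4 : Fin (N + 1) → V) : ¬ ty' c σ1 σ2 σ4 0 := by
  rintro ⟨l, h, _⟩
  omega

omit [Fintype V] [DecidableEq V] in
theorem ty'_last (c : Finset (Fin N)) (σ1 σ2 σ4 : Fin (N + 1) → V) :
    ¬ ty' c σ1 σ2 σ4 (N + 1) := by
  rintro ⟨l, h, _⟩
  have := l.2
  omega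

omit [Fintype V] [DecidableEq V] in
theorem Compat.ty_pos {c : Finset (Fin N)} {σ1 σ2 σ3 σ4 : Fin (N + 1) → V}
    (h : Compat σ1 σ2 σ3 σ4) {l : Fin N} (ht : ty c σ1 σ2 σ4 l) :
    edge σ4 l = edge σ1 l ∧ edge σ2 l = edge σ3 l := by
  rcases h l with h1 | h1
  · rcases ht with ⟨_, h2⟩ | ⟨_, h2⟩
    · exact ⟨h2, by rw [h1.1, ← h2, h1.2]⟩
    · exact absurd h1.1 h2
  · exact h1

omit [Fintype V] [DecidableEq V] in
theorem Compat.ty_neg {c : Finset (Fin N)} {σ1 σ2 σ3 σ4 : Fin (N + 1) → V}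
    (h : Compat σ1 σ2 σ3 σ4) {l : Fin N} (ht : ¬ ty c σ1 σ2 σ4 l) :
    edge σ2 l = edge σ1 l ∧ edge σ4 l = edge σ3 l := by
  rcases h l with h1 | h1
  · exact h1
  · by_cases hc : l ∈ c
    · exact absurd (Or.inl ⟨hc, h1.1⟩) ht
    · have h2 : edge σ2 l = edge σ1 l := by
        by_contra h2
        exact ht (Or.inr ⟨hc, h2⟩)
      exact ⟨h2, by rw [h1.1, ← h2, h1.2]⟩

/-- vertexwise consequences, seen from the left layer -/
theorem Compat.left {c : Finset (Fin N)} {z : V} {σ1 σ2 σ3 σ4 : Fin (N + 1) → V}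
    (h : Compat σ1 σ2 σ3 σ4) (h1 : σ1 ∈ paths N z z) (h2 : σ2 ∈ paths N z z)
    (h3 : σ3 ∈ paths N z z) (h4 : σ4 ∈ paths N z z) (v : Fin (N + 1)) :
    (ty' c σ1 σ2 σ4 v → σ4 v = σ1 v ∧ σ2 v = σ3 v) ∧
      (¬ ty' c σ1 σ2 σ4 v → σ2 v = σ1 v ∧ σ4 v = σ3 v) := by
  rw [mem_paths] at h1 h2 h3 h4
  refine Fin.cases ?_ (fun l => ?_) v
  · simp [h1.1, h2.1, h3.1, h4.1]
  · rw [Fin.val_succ, ty'_succ]
    constructor
    · intro ht
      have := h.ty_pos ht
      exact ⟨congrArg (fun x => x.2.2) this.1, congrArg (fun x => x.2.2) this.2⟩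
    · intro ht
      have := h.ty_neg ht
      exact ⟨congrArg (fun x => x.2.2) this.1, congrArg (fun x => x.2.2) this.2⟩

/-- vertexwise consequences, seen from the right layer -/
theorem Compat.right {c : Finset (Fin N)} {z : V} {σ1 σ2 σ3 σ4 : Fin (N + 1) → V}
    (h : Compat σ1 σ2 σ3 σ4) (h1 : σ1 ∈ paths N z z) (h2 : σ2 ∈ paths N z z)
    (h3 : σ3 ∈ paths N z z) (h4 : σ4 ∈ paths N z z) (v : Fin (N + 1)) :
    (ty' c σ1 σ2 σ4 (v + 1) → σ4 v = σ1 v ∧ σ2 v = σ3 v) ∧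
      (¬ ty' c σ1 σ2 σ4 (v + 1) → σ2 v = σ1 v ∧ σ4 v = σ3 v) := by
  rw [mem_paths] at h1 h2 h3 h4
  refine Fin.lastCases ?_ (fun l => ?_) v
  · simp [h1.2, h2.2, h3.2, h4.2]
  · rw [Fin.val_castSucc, ty'_succ]
    constructor
    · intro ht
      have := h.ty_pos ht
      exact ⟨congrArg (fun x => x.2.1) this.1, congrArg (fun x => x.2.1) this.2⟩
    · intro ht
      have := h.ty_neg ht
      exact ⟨congrArg (fun x => x.2.1) this.1, congrArg (fun x => x.2.1) this.2⟩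

open Classical in
/-- encoding of a compatible quadruple -/
noncomputable def enc (c : Finset (Fin N)) (σ1 : Fin (N + 1) → V)
    (x : (Fin (N + 1) → V) × (Fin (N + 1) → V) × (Fin (N + 1) → V)) : Fin (N + 1) → Option V :=
  fun v => if ¬ (ty' c σ1 x.1 x.2.1 v ↔ ty' c σ1 x.1 x.2.1 (v + 1)) then none else some (x.2.2 v)

theorem enc_inj (c : Finset (Fin N)) (z : V) {σ1 : Fin (N + 1) → V} (h1 : σ1 ∈ paths N z z)
    {x y : (Fin (N + 1) → V) × (Fin (N + 1) → V) × (Fin (N + 1) → V)}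
    (hx : x ∈ paths N z z ×ˢ paths N z z ×ˢ paths N z z)
    (hy : y ∈ paths N z z ×ˢ paths N z z ×ˢ paths N z z)
    (cx : Compat σ1 x.1 x.2.2 x.2.1) (cy : Compat σ1 y.1 y.2.2 y.2.1)
    (h : enc c σ1 x = enc c σ1 y) : x = y := by
  obtain ⟨σ2, σ4, σ3⟩ := x
  obtain ⟨τ2, τ4, τ3⟩ := y
  simp only [mem_product] at hx hy cx cy
  have hsw : ∀ v : Fin (N + 1), (ty' c σ1 σ2 σ4 v ↔ ty' c σ1 σ2 σ4 (v + 1)) ↔
      (ty' c σ1 τ2 τ4 v ↔ ty' c σ1 τ2 τ4 (v + 1)) := by
    intro v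
    have := congrFun h v
    simp only [enc] at this
    split_ifs at this with a1 a2 a2
    · exact iff_of_true a1 a2
    · exact iff_of_false a1 a2
  have ht : ∀ j ≤ N + 1, ty' c σ1 σ2 σ4 j ↔ ty' c σ1 τ2 τ4 j := by
    intro j hj
    induction j with
    | zero => exact iff_of_false (ty'_zero _ _ _ _) (ty'_zero _ _ _ _)
    | succ j ih =>
      have a1 := ih (by omega)
      have a2 := hsw ⟨j, by omega⟩
      simp only at a2
      tauto
  have h3 : σ3 = τ3 := by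
    funext v
    have := congrFun h v
    simp only [enc] at this
    have l1 := cx.left (c := c) h1 hx.1 hx.2.2 hx.2.1 v
    have r1 := cx.right (c := c) h1 hx.1 hx.2.2 hx.2.1 v
    have l2 := cy.left (c := c) h1 hy.1 hy.2.2 hy.2.1 v
    have r2 := cy.right (c := c) h1 hy.1 hy.2.2 hy.2.1 v
    split_ifs at this with a1 a2 a2
    · exact Option.some.inj this
    · have b1 : σ3 v = σ1 v := by
        by_cases b : ty' c σ1 σ2 σ4 v
        · have b' : ¬ ty' c σ1 σ2 σ4 (v + 1) := by tauto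
          rw [← (r1.2 b').2, (l1.1 b).1]
        · have b' : ty' c σ1 σ2 σ4 (v + 1) := by tauto
          rw [← (l1.2 b).2, (r1.1 b').1]
      have b2 : τ3 v = σ1 v := by
        by_cases b : ty' c σ1 τ2 τ4 v
        · have b' : ¬ ty' c σ1 τ2 τ4 (v + 1) := by tauto
          rw [← (r2.2 b').2, (l2.1 b).1]
        · have b' : ty' c σ1 τ2 τ4 (v + 1) := by tauto
          rw [← (l2.2 b).2, (r2.1 b').1]
      rw [b1, b2]
  subst h3
  have key : ∀ v, σ2 v = τ2 v ∧ σ4 v = τ4 v := by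
    intro v
    have l1 := cx.left (c := c) h1 hx.1 hx.2.2 hx.2.1 v
    have l2 := cy.left (c := c) h1 hy.1 hy.2.2 hy.2.1 v
    have a := ht v (by omega)
    by_cases b : ty' c σ1 σ2 σ4 v
    · have b' := a.1 b
      exact ⟨by rw [(l1.1 b).2, (l2.1 b').2], by rw [(l1.1 b).1, (l2.1 b').1]⟩
    · have b' : ¬ ty' c σ1 τ2 τ4 v := fun h => b (a.2 h)
      exact ⟨by rw [(l1.2 b).1, (l2.2 b').1], by rw [(l1.2 b).2, (l2.2 b').2]⟩
  have e2 : σ2 = τ2 := funext fun v => (key v).1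
  have e4 : σ4 = τ4 := funext fun v => (key v).2
  rw [e2, e4]

open Classical in
theorem cnt_le (c : Finset (Fin N)) (p q : ℕ) (hp : p ≤ #(Ys V c)) (hq : q ≤ #(Ys V c)ᶜ)
    (σ1 σ2 σ3 σ4 : Fin (N + 1) → V) :
    ∑ S, ∑ S', (if QQ c p q S S' σ1 σ2 then (1 : ℝ) else 0) *
        (if QQ c p q S S' σ4 σ3 then (1 : ℝ) else 0) ≤
      (#(Ys V c)).choose p * (#(Ys V c)ᶜ).choose q *
        ((((#(Ys V c) : ℕ) : ℝ) - p) / #(Ys V c)) ^
          (#c + #(c.filter fun l : Fin N => ¬ ty' c σ1 σ2 σ4 (l + 1))) *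
        ((q : ℝ) / #(Ys V c)ᶜ) ^ #(cᶜ.filter fun l : Fin N => ty' c σ1 σ2 σ4 (l + 1)) := by
  simp only [ty'_succ]
  set A := c.image (edge σ1) ∪ (c.filter fun l : Fin N => ¬ ty c σ1 σ2 σ4 l).image (edge σ4)
    with hA
  set B := (cᶜ.filter fun l : Fin N => ty c σ1 σ2 σ4 l).image (edge σ2) with hB
  have cA : #A = #c + #(c.filter fun l : Fin N => ¬ ty c σ1 σ2 σ4 l) := by
    rw [hA, card_union_of_disjoint, card_image_of_injective _ (edge_inj _),
      card_image_of_injective _ (edge_inj _)]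
    rw [disjoint_left]
    intro x hx hx'
    simp only [mem_image, mem_filter] at hx hx'
    obtain ⟨l, _, rfl⟩ := hx
    obtain ⟨l', ⟨h1, h2⟩, h3⟩ := hx'
    have := edge_eq h3
    subst this
    exact h2 (Or.inl ⟨h1, h3⟩)
  have cB : #B = #(cᶜ.filter fun l : Fin N => ty c σ1 σ2 σ4 l) :=
    card_image_of_injective _ (edge_inj _)
  rw [← cA, ← cB]
  refine le_trans ?_ (card_avoid_le (Ys V c) A B p q ?_ ?_ hp hq)
  · calc _ ≤ ∑ S, if S ∈ bi (Ys V c) p q ∧ Disjoint S A ∧ B ⊆ S then (1 : ℝ) else 0 := by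
          refine Finset.sum_le_sum fun S _ => ?_
          rw [Finset.sum_eq_single ((S ∪ es σ1) \ es σ2)]
          · by_cases h : QQ c p q S ((S ∪ es σ1) \ es σ2) σ1 σ2
            · by_cases h' : QQ c p q S ((S ∪ es σ1) \ es σ2) σ4 σ3
              · rw [if_pos h, if_pos h', if_pos, mul_one]
                refine ⟨h.1, ?_, ?_⟩
                · rw [hA, disjoint_union_right]
                  exact ⟨h.2.2.1.mono_right (image_subset_image (subset_univ _)),
                    h'.2.2.1.mono_right (image_subset_image (subset_univ _))⟩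
                · intro x hx
                  simp only [hB, mem_image, mem_filter, mem_compl] at hx
                  obtain ⟨l, ⟨h1, h2⟩, rfl⟩ := hx
                  rcases h2 with h2 | h2
                  · exact absurd h2.1 h1
                  · exact h.mem h2.2
              · rw [if_neg h', mul_zero]
                split_ifs <;> norm_num
            · rw [if_neg h, zero_mul]
              split_ifs <;> norm_num
          · intro S' _ hS'
            rw [if_neg, zero_mul]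
            intro h
            apply hS'
            rw [h.2.2.2.2, union_sdiff_cancel_right h.2.2.2.1]
          · simp
      _ = _ := by
          rw [Finset.sum_boole]
          congr 2
          ext S
          simp
  · intro x hx
    simp only [hA, mem_union, mem_image, mem_filter] at hx
    rw [mem_Ys]
    rcases hx with ⟨l, h, rfl⟩ | ⟨l, h, rfl⟩
    · exact h
    · exact h.1
  · intro x hx
    simp only [hB, mem_image, mem_filter] at hx
    rw [compl_Ys, mem_Ys]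
    obtain ⟨l, h, rfl⟩ := hx
    exact h.1

theorem W4_le (c : Finset (Fin N)) (z : V) (p q : ℕ) (hp : p ≤ #(Ys V c)) (hq : q ≤ #(Ys V c)ᶜ)
    (g : ℕ → ℝ) (G : ℝ) (hg : ∀ v, |g v| ≤ G)
    (hY : ∀ l ∈ c, 1 ≤ ((((#(Ys V c) : ℕ) : ℝ) - p) / #(Ys V c)) * Real.exp (g (l + 1) - g l))
    (hZ : ∀ l ∉ c, ((q : ℝ) / #(Ys V c)ᶜ) ≤ Real.exp (g (l + 1) - g l)) :
    ∑ S, ∑ S', (∑ T, ((Fm c z p q S T : ℕ) : ℝ) * ((Fm c z p q S' T : ℕ) : ℝ)) ^ 2 ≤
      #(paths N z z) * ((#(Ys V c)).choose p * (#(Ys V c)ᶜ).choose q *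
        ((((#(Ys V c) : ℕ) : ℝ) - p) / #(Ys V c)) ^ (2 * #c) *
          (Fintype.card V + Real.exp G) ^ (N + 1)) := by
  classical
  set P := paths N z z with hP
  set p1 := ((((#(Ys V c) : ℕ) : ℝ) - p) / #(Ys V c)) with hp1
  set p2 := ((q : ℝ) / #(Ys V c)ᶜ) with hp2
  set D : ℝ := (#(Ys V c)).choose p * (#(Ys V c)ᶜ).choose q with hD
  have hp' : (p : ℝ) ≤ #(Ys V c) := by exact_mod_cast hp
  have hp10 : 0 ≤ p1 := div_nonneg (by linarith) (by positivity)
  have hp20 : 0 ≤ p2 := by positivity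
  have hD0 : 0 ≤ D := by positivity
  let cnt : (Fin (N + 1) → V) → (Fin (N + 1) → V) × (Fin (N + 1) → V) × (Fin (N + 1) → V) → ℝ :=
    fun σ1 x => ∑ S, ∑ S', (if QQ c p q S S' σ1 x.1 then (1 : ℝ) else 0) *
        (if QQ c p q S S' x.2.1 x.2.2 then (1 : ℝ) else 0)
  have e1 : ∑ S, ∑ S', (∑ T, ((Fm c z p q S T : ℕ) : ℝ) * ((Fm c z p q S' T : ℕ) : ℝ)) ^ 2 =
      ∑ σ1 ∈ P, ∑ x ∈ P ×ˢ P ×ˢ P, cnt σ1 x := by
    have : ∀ S S' : Finset (Fin N × V × V),
        (∑ T, ((Fm c z p q S T : ℕ) : ℝ) * ((Fm c z p q S' T : ℕ) : ℝ)) ^ 2 =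
        ∑ σ1 ∈ P, ∑ x ∈ P ×ˢ P ×ˢ P, (if QQ c p q S S' σ1 x.1 then (1 : ℝ) else 0) *
          (if QQ c p q S S' x.2.1 x.2.2 then (1 : ℝ) else 0) := by
      intro S S'
      rw [gram_eq, sq, Finset.sum_mul]
      refine Finset.sum_congr rfl fun σ1 _ => ?_
      rw [Finset.sum_product, Finset.sum_mul]
      refine Finset.sum_congr rfl fun σ2 _ => ?_
      rw [Finset.sum_product, Finset.mul_sum]
      refine Finset.sum_congr rfl fun σ4 _ => ?_
      rw [Finset.mul_sum]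
    simp only [this]
    simp only [cnt]
    conv_lhs =>
      enter [2, S]
      rw [Finset.sum_comm]
      enter [2, σ1]
      rw [Finset.sum_comm]
    rw [Finset.sum_comm]
    refine Finset.sum_congr rfl fun σ1 _ => ?_
    rw [Finset.sum_comm]
  rw [e1, ← nsmul_eq_mul, ← Finset.sum_const]
  refine Finset.sum_le_sum fun σ1 h1 => ?_
  let w : (Fin (N + 1) → Option V) → ℝ := fun o => ∏ v, if o v = none then Real.exp G else 1
  have hw0 : ∀ o, 0 ≤ w o := fun o => Finset.prod_nonneg fun v _ => by split_ifs <;> positivity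
  have hw : ∑ o, w o = (Fintype.card V + Real.exp G) ^ (N + 1) := by
    have := Finset.prod_univ_sum (fun _ : Fin (N + 1) => (univ : Finset (Option V)))
      (fun _ y => if y = none then Real.exp G else (1 : ℝ))
    rw [Fintype.piFinset_univ] at this
    rw [← this]
    simp [add_comm]
  set X := (P ×ˢ P ×ˢ P).filter fun x => Compat σ1 x.1 x.2.2 x.2.1 with hX
  calc ∑ x ∈ P ×ˢ P ×ˢ P, cnt σ1 x = ∑ x ∈ X, cnt σ1 x := by
        rw [hX, Finset.sum_filter]
        refine Finset.sum_congr rfl fun x _ => ?_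
        split_ifs with h
        · rfl
        · refine Finset.sum_eq_zero fun S _ => Finset.sum_eq_zero fun S' _ => ?_
          split_ifs with a1 a2
          · exact absurd (a1.compat a2) h
          · simp
          · simp
          · simp
    _ ≤ ∑ x ∈ X, D * p1 ^ (2 * #c) * w (enc c σ1 x) := by
        refine Finset.sum_le_sum fun x _ => ?_
        refine (cnt_le c p q hp hq σ1 x.1 x.2.2 x.2.1).trans ?_
        have := pot_bound c (ty' c σ1 x.1 x.2.1) (ty'_zero _ _ _ _) (ty'_last _ _ _ _) g G p1 p2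
          hp10 hp20 hg hY hZ
        have e : w (enc c σ1 x) = ∏ v : Fin (N + 1),
            if ¬ (ty' c σ1 x.1 x.2.1 v ↔ ty' c σ1 x.1 x.2.1 (v + 1)) then Real.exp G else 1 := by
          refine Finset.prod_congr rfl fun v _ => ?_
          simp only [enc]
          split_ifs <;> simp_all
        rw [e, ← hp1, ← hp2, ← hD, pow_add, two_mul, pow_add]
        refine le_trans (le_of_eq ?_) ((mul_le_mul_of_nonneg_left this
          (by positivity : 0 ≤ D * p1 ^ #c)).trans (le_of_eq ?_))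
        · ring
        · ring
    _ = D * p1 ^ (2 * #c) * ∑ o ∈ X.image (enc c σ1), w o := by
        rw [← Finset.mul_sum, Finset.sum_image]
        intro x hx y hy h
        have hx' := mem_filter.1 (Finset.mem_coe.1 hx)
        have hy' := mem_filter.1 (Finset.mem_coe.1 hy)
        exact enc_inj c z h1 hx'.1 hy'.1 hx'.2 hy'.2 h
    _ ≤ _ := by
        rw [← hw]
        gcongr
        exact subset_univ _

end Crest.Agent.Imm
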