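import Mathlib
import Crest.Prelude.Def_SPSPS
import Crest.Agent.Imm.Conv

namespace Crest.Agent.Imm

open Finset MvPolynomial Crest.ArithCircuit

variable {ι : Type*} {K : Type*} [Field K] {L B P S R : Type*}

theorem homog_multiset_prod {κ : Type*} (s : Multiset κ) (f : κ → MvPolynomial ι K) (e : κ → ℕ)
    (h : ∀ x ∈ s, (f x).IsHomogeneous (e x)) : (s.map f).prod.IsHomogeneous (s.map e).sum := by
  induction s using Multiset.induction_on with
  | empty => simpa using isHomogeneous_one ι K
  | cons a s ih =>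
    simp only [Multiset.map_cons, Multiset.prod_cons, Multiset.sum_cons]
    exact (h a (Multiset.mem_cons_self _ _)).mul (ih fun x hx => h x (Multiset.mem_cons_of_mem hx))

theorem homog_valB (C : SPSPS K ι L B P S R) (h : C.IsHomogeneous) (b : B) :
    (C.valB b).IsHomogeneous (C.degB b) := by
  refine IsHomogeneous.sum _ _ _ fun l hl => ?_
  rw [smul_eq_C_mul, ← h.1 b l hl]
  apply IsHomogeneous.C_mul
  unfold SPSPS.leafVal SPSPS.leafDeg
  cases C.leaf l with
  | inl i => exact isHomogeneous_X K i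
  | inr c => exact isHomogeneous_C ι c

theorem homog_valP (C : SPSPS K ι L B P S R) (h : C.IsHomogeneous) (p : P) :
    (C.valP p).IsHomogeneous (C.degP p) :=
  homog_multiset_prod _ _ _ fun b _ => homog_valB C h b

theorem homog_valS (C : SPSPS K ι L B P S R) (h : C.IsHomogeneous) (s : S) :
    (C.valS s).IsHomogeneous (C.degS s) := by
  refine IsHomogeneous.sum _ _ _ fun p hp => ?_
  rw [smul_eq_C_mul, ← h.2.1 s p hp]
  exact (homog_valP C h p).C_mul _

theorem homog_valR (C : SPSPS K ι L B P S R) (h : C.IsHomogeneous) (r : R) :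
    (C.valR r).IsHomogeneous (C.degR r) :=
  homog_multiset_prod _ _ _ fun s _ => homog_valS C h s

theorem homog_output (C : SPSPS K ι L B P S R) (h : C.IsHomogeneous) :
    C.output.IsHomogeneous C.degOut := by
  refine IsHomogeneous.sum _ _ _ fun r hr => ?_
  rw [smul_eq_C_mul, ← h.2.2 r hr]
  exact (homog_valR C h r).C_mul _

omit [Field K] in
theorem degB_le_one (C : SPSPS K ι L B P S R) (b : B) : C.degB b ≤ 1 := by
  unfold SPSPS.degB
  refine Finset.sup_le fun l _ => ?_
  unfold SPSPS.leafDeg
  cases C.leaf l <;> simp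

/-- the weight of a homogeneous polynomial of degree `e` -/
noncomputable def Sw (α β : ℝ) (e : ℕ) : ℝ :=
  ∑ i ∈ range (e + 1), min (α ^ i * β ^ (e - i)) (α ^ i * β ^ (e - i))⁻¹

theorem Sw_zero (α β : ℝ) : Sw α β 0 = 1 := by simp [Sw]

theorem Sw_le {α β : ℝ} (hα : 0 < α) (hβ : 0 < β) (e : ℕ) : Sw α β e ≤ e + 1 := by
  unfold Sw
  calc _ ≤ ∑ i ∈ range (e + 1), (1 : ℝ) := by
        refine Finset.sum_le_sum fun i _ => ?_
        have : 0 < α ^ i * β ^ (e - i) := by positivity
        rcases le_total (α ^ i * β ^ (e - i)) 1 with h | h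
        · exact (min_le_left _ _).trans h
        · exact (min_le_right _ _).trans (inv_le_one_of_one_le₀ h)
    _ = _ := by simp

variable [Fintype ι] [DecidableEq ι]

theorem circ_dec [Fintype P] [Fintype R] (C : SPSPS K ι L B P S R) (h : C.IsHomogeneous)
    (Y : Finset ι) {α β μ lam E : ℝ} (hα : 0 < α) (hβ : 0 < β) (t : ℕ) (hμ0 : 0 ≤ μ) (hμ1 : μ ≤ 1)
    (hμ : Sw α β 1 ≤ μ) (hlam : ∀ e ≤ t, Sw α β e ≤ lam ^ e) (hE0 : 0 ≤ E)
    (hE1 : lam ^ C.degOut ≤ E) (hE2 : μ ^ t ≤ E) :
    Dec Y α β C.output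
      (Fintype.card R * ((Fintype.card P + 1) * (C.degOut + 1) * E)) := by
  classical
  have hB : ∀ b, Dec Y α β (C.valB b) (μ ^ C.degB b) := fun b => by
    have h1 := Dec.of_homog (Y := Y) hα hβ (homog_valB C h b)
    refine h1.mono ?_
    change Sw α β _ ≤ _
    have := degB_le_one C b
    interval_cases C.degB b
    · simp [Sw_zero]
    · simpa using hμ
  have hP : ∀ p, Dec Y α β (C.valP p) (μ ^ C.degP p) := fun p =>
    Dec.multiset_prod hα hβ _ _ _ _ fun b _ => hB b
  have hS : ∀ s, t ≤ C.degS s → Dec Y α β (C.valS s) (Fintype.card P * E) := fun s hs => by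
    have := Dec.sum (C.inS s) (fun p => C.coefS s p • C.valP p) (fun _ => E) fun p hp =>
      ((hP p).smul hα hβ _).mono (by
        rw [h.2.1 s p hp]
        exact (pow_le_pow_of_le_one hμ0 hμ1 hs).trans hE2)
    refine this.mono ?_
    rw [sum_const, nsmul_eq_mul]
    gcongr
    exact card_le_univ _
  have hR : ∀ r ∈ C.inOut, Dec Y α β (C.valR r) ((Fintype.card P + 1) * (C.degOut + 1) * E) := by
    intro r hr
    by_cases hc : ∀ s ∈ C.inR r, C.degS s ≤ t
    · have := Dec.multiset_prod (Y := Y) hα hβ (C.inR r) C.valS C.degS lam fun s hs =>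
        (Dec.of_homog hα hβ (homog_valS C h s)).mono (hlam _ (hc s hs))
      refine this.mono ?_
      change lam ^ C.degR r ≤ _
      rw [h.2.2 r hr]
      refine hE1.trans (le_mul_of_one_le_left hE0 ?_)
      apply one_le_mul_of_one_le_of_one_le <;> simp
    · push Not at hc
      obtain ⟨s, hs, hst⟩ := hc
      obtain ⟨m, hm⟩ := Multiset.exists_cons_of_mem hs
      have h1 := Dec.of_homog (Y := Y) hα hβ
        (homog_multiset_prod m C.valS C.degS fun s _ => homog_valS C h s)
      have h2 := (hS s hst.le).mul hα hβ h1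
      have e1 : C.valR r = C.valS s * (m.map C.valS).prod := by
        simp [SPSPS.valR, hm]
      have e2 : (m.map C.degS).sum ≤ C.degOut := by
        rw [← h.2.2 r hr]
        simp [SPSPS.degR, hm]
      rw [e1]
      refine h2.mono ?_
      change _ * Sw α β _ ≤ _
      have h3 := Sw_le hα hβ (m.map C.degS).sum
      have h4 : (((m.map C.degS).sum : ℕ) : ℝ) ≤ C.degOut := by exact_mod_cast e2
      calc (Fintype.card P : ℝ) * E * Sw α β (m.map C.degS).sum
          ≤ (Fintype.card P + 1) * E * (C.degOut + 1) := by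
            gcongr
            · unfold Sw; positivity
            · linarith
            · linarith
        _ = _ := by ring
  have := Dec.sum C.inOut (fun r => C.coefOut r • C.valR r) _ fun r hr => (hR r hr).smul hα hβ _
  refine this.mono ?_
  rw [sum_const, nsmul_eq_mul]
  gcongr
  exact card_le_univ _

end Crest.Agent.Imm
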