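import Mathlib
import Crest.Agent.Imm.Circ

namespace Crest.Agent.Imm

open Finset

/-- the greedy walk -/
def walk (r : ℕ) : ℕ → ℤ
  | 0 => 0
  | v + 1 => if walk r v < 0 then walk r v + (r + 1) else walk r v - r

theorem walk_bound (r v : ℕ) : -(r : ℤ) ≤ walk r v ∧ walk r v ≤ r := by
  induction v with
  | zero => simp [walk]
  | succ v ih =>
    simp only [walk]
    split_ifs <;> omega

theorem walk_sum (r N : ℕ) :
    walk r N = (r + 1) * (#((range N).filter fun v => walk r v < 0) : ℤ) -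
      r * (#((range N).filter fun v => ¬ walk r v < 0) : ℤ) := by
  induction N with
  | zero => simp [walk]
  | succ N ih =>
    rw [range_add_one, filter_insert, filter_insert]
    by_cases h : walk r N < 0
    · rw [if_pos h, if_neg (not_not.2 h), card_insert_of_notMem (by simp)]
      simp only [walk, if_pos h]
      push_cast
      linarith
    · rw [if_neg h, if_pos h, card_insert_of_notMem (by simp)]
      simp only [walk, if_neg h]
      push_cast
      linarith

/-- the set of `Y`-layers -/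
def cl (r N : ℕ) : Finset (Fin N) := univ.filter fun l => walk r l < 0

theorem mem_cl {r N : ℕ} {l : Fin N} : l ∈ cl r N ↔ walk r l < 0 := by simp [cl]

theorem card_filter_fin (N : ℕ) (P : ℕ → Prop) [DecidablePred P] :
    #((univ : Finset (Fin N)).filter fun l : Fin N => P l) = #((range N).filter P) := by
  rw [Finset.card_filter, Finset.card_filter,
    Fin.sum_univ_eq_sum_range (fun l => if P l then 1 else 0)]

theorem walk_cl (r N : ℕ) : walk r N = (r + 1) * (#(cl r N) : ℤ) - r * (#(cl r N)ᶜ : ℤ) := by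
  rw [walk_sum, cl, compl_filter, card_filter_fin N (fun v => walk r v < 0),
    card_filter_fin N (fun v => ¬ walk r v < 0)]

theorem cl_pos {r N : ℕ} (hr : 1 ≤ r) (hN : 2 ≤ N) : 1 ≤ #(cl r N) ∧ 1 ≤ #(cl r N)ᶜ := by
  constructor
  · refine card_pos.2 ⟨⟨1, by omega⟩, ?_⟩
    rw [mem_cl]
    simp [walk]
    omega
  · refine card_pos.2 ⟨⟨0, by omega⟩, ?_⟩
    rw [mem_compl, mem_cl]
    simp [walk]

theorem sum_ite_le {s : Finset ℕ} (P : ℕ → Prop) [DecidablePred P] (c : ℝ) (hc : 0 ≤ c)
    (hP : ∀ i j, P i → P j → i = j) : (∑ i ∈ s, if P i then c else 0) ≤ c := by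
  rw [← Finset.sum_filter, sum_const, nsmul_eq_mul]
  have : #(s.filter P) ≤ 1 := card_le_one.2 fun a ha b hb =>
    hP a b (mem_filter.1 ha).2 (mem_filter.1 hb).2
  have : (#(s.filter P) : ℝ) ≤ 1 := by exact_mod_cast this
  nlinarith

theorem Sw_bound (r e : ℕ) (L : ℝ) (hL : 0 < L) (he : 2 * e ≤ r)
    (h1 : Real.exp (-((r + 1) * L)) ≤ 1 / 2) (h2 : Real.exp (2 * e * L) ≤ 1 + e) :
    Sw (Real.exp (-(2 * (r + 1) * L))) (Real.exp (2 * r * L)) e ≤
      (Real.exp (-L) * (1 + 4 * Real.exp (-(4 * r * L)))) ^ e := by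
  rcases Nat.eq_zero_or_pos e with rfl | he0
  · simp [Sw_zero]
  set δ := Real.exp (-(4 * r * L)) with hδ
  have hδ0 : 0 < δ := Real.exp_pos _
  have her : 2 * (e : ℝ) ≤ r := by exact_mod_cast he
  have he1 : (1 : ℝ) ≤ e := by exact_mod_cast he0
  have hterm : ∀ i ∈ range (e + 1),
      min (Real.exp (-(2 * (r + 1) * L)) ^ i * Real.exp (2 * r * L) ^ (e - i))
        (Real.exp (-(2 * (r + 1) * L)) ^ i * Real.exp (2 * r * L) ^ (e - i))⁻¹ ≤
      Real.exp (-(e * L)) * ((if 2 * i = e then 1 else 0) + (if 2 * i + 1 = e then 1 / 2 else 0) +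
        (if 2 * i = e + 1 then 1 / 2 else 0) + (if 2 * i + 2 = e then δ * (1 + e) else 0) + δ) := by
    intro i hi
    have hie : i ≤ e := by simpa [Nat.lt_succ_iff] using hi
    have e1 : Real.exp (-(2 * (r + 1) * L)) ^ i * Real.exp (2 * r * L) ^ (e - i) =
        Real.exp (((2 * r + 1) * (e - 2 * i) - e) * L) := by
      rw [← Real.exp_nat_mul, ← Real.exp_nat_mul, ← Real.exp_add, Nat.cast_sub hie]
      congr 1
      ring
    rw [e1, ← Real.exp_neg]
    have hr0 : (0 : ℝ) ≤ r := by positivity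
    have hE : 0 < Real.exp (-(e * L)) := Real.exp_pos _
    have hde : 0 ≤ δ * (1 + e) := by positivity
    by_cases c1 : 2 * i = e
    · have : (e : ℝ) - 2 * i = 0 := by rw [← c1]; push_cast; ring
      refine (min_le_left _ _).trans ?_
      rw [this, if_pos c1]
      calc _ = Real.exp (-(e * L)) * 1 := by rw [mul_one]; congr 1; ring
        _ ≤ _ := by gcongr; split_ifs <;> linarith
    by_cases c2 : 2 * i + 1 = e
    · have : (e : ℝ) - 2 * i = 1 := by rw [← c2]; push_cast; ring
      refine (min_le_right _ _).trans ?_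
      rw [this, if_pos c2]
      calc _ ≤ Real.exp (-(e * L)) * Real.exp (-((r + 1) * L)) := by
            rw [← Real.exp_add]; apply Real.exp_le_exp.2; nlinarith
        _ ≤ _ := by gcongr; split_ifs <;> linarith
    by_cases c3 : 2 * i = e + 1
    · have : (e : ℝ) - 2 * i = -1 := by
        have : (2 * i : ℝ) = e + 1 := by exact_mod_cast c3
        linarith
      refine (min_le_left _ _).trans ?_
      rw [this, if_pos c3]
      calc _ ≤ Real.exp (-(e * L)) * Real.exp (-((r + 1) * L)) := by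
            rw [← Real.exp_add]; apply Real.exp_le_exp.2; nlinarith
        _ ≤ _ := by gcongr; split_ifs <;> linarith
    by_cases c4 : 2 * i + 2 = e
    · have : (e : ℝ) - 2 * i = 2 := by rw [← c4]; push_cast; ring
      refine (min_le_right _ _).trans ?_
      rw [this, if_pos c4]
      calc _ ≤ Real.exp (-(e * L)) * (δ * Real.exp (2 * e * L)) := by
            rw [hδ, ← Real.exp_add, ← Real.exp_add]; apply Real.exp_le_exp.2; nlinarith
        _ ≤ Real.exp (-(e * L)) * (δ * (1 + e)) := by gcongr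
        _ ≤ _ := by gcongr; split_ifs <;> linarith
    rw [if_neg c1, if_neg c2, if_neg c3, if_neg c4]
    simp only [zero_add]
    rw [hδ, ← Real.exp_add]
    by_cases c5 : 2 * i + 3 ≤ e
    · have : 3 ≤ (e : ℝ) - 2 * i := by
        have : (2 * i + 3 : ℝ) ≤ e := by exact_mod_cast c5
        linarith
      refine (min_le_right _ _).trans (Real.exp_le_exp.2 ?_)
      have h3 : (2 * r + 1) * 3 ≤ (2 * r + 1) * ((e : ℝ) - 2 * i) := by gcongr
      nlinarith
    · have : (e : ℝ) - 2 * i ≤ -2 := by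
        have : (e + 2 : ℝ) ≤ 2 * i := by exact_mod_cast (by omega : e + 2 ≤ 2 * i)
        linarith
      refine (min_le_left _ _).trans (Real.exp_le_exp.2 ?_)
      have h3 : (2 * r + 1) * ((e : ℝ) - 2 * i) ≤ (2 * r + 1) * (-2) := by gcongr
      nlinarith
  unfold Sw
  refine (Finset.sum_le_sum hterm).trans ?_
  rw [← Finset.mul_sum, mul_pow, ← Real.exp_nat_mul]
  have e2 : Real.exp (e * -L) = Real.exp (-(e * L)) := by congr 1; ring
  rw [e2]
  gcongr
  simp only [Finset.sum_add_distrib]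
  have a4 := sum_ite_le (s := range (e + 1)) (fun i => 2 * i + 2 = e) (δ * (1 + e))
    (by positivity) (fun i j hi hj => by omega)
  have a5 : ∑ _i ∈ range (e + 1), δ = (e + 1) * δ := by simp
  have a1 : (∑ i ∈ range (e + 1), if 2 * i = e then (1 : ℝ) else 0) +
      (∑ i ∈ range (e + 1), if 2 * i + 1 = e then (1 / 2 : ℝ) else 0) +
      (∑ i ∈ range (e + 1), if 2 * i = e + 1 then (1 / 2 : ℝ) else 0) ≤ 1 := by
    rcases Nat.even_or_odd' e with ⟨u, hu | hu⟩
    · have b1 := sum_ite_le (s := range (e + 1)) (fun i => 2 * i = e) 1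
        (by positivity) (fun i j hi hj => by omega)
      have b2 : (∑ i ∈ range (e + 1), if 2 * i + 1 = e then (1 / 2 : ℝ) else 0) = 0 :=
        Finset.sum_eq_zero fun i _ => if_neg (by omega)
      have b3 : (∑ i ∈ range (e + 1), if 2 * i = e + 1 then (1 / 2 : ℝ) else 0) = 0 :=
        Finset.sum_eq_zero fun i _ => if_neg (by omega)
      linarith
    · have b1 : (∑ i ∈ range (e + 1), if 2 * i = e then (1 : ℝ) else 0) = 0 :=
        Finset.sum_eq_zero fun i _ => if_neg (by omega)
      have b2 := sum_ite_le (s := range (e + 1)) (fun i => 2 * i + 1 = e) (1 / 2)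
        (by positivity) (fun i j hi hj => by omega)
      have b3 := sum_ite_le (s := range (e + 1)) (fun i => 2 * i = e + 1) (1 / 2)
        (by positivity) (fun i j hi hj => by omega)
      linarith
  have a6 := one_add_mul_le_pow (a := 4 * δ) (by linarith) e
  nlinarith

theorem Sw_one (r : ℕ) (L : ℝ) (hL : 0 < L) :
    Sw (Real.exp (-(2 * (r + 1) * L))) (Real.exp (2 * r * L)) 1 ≤ 2 * Real.exp (-(2 * r * L)) := by
  unfold Sw
  rw [Finset.sum_range_succ, Finset.sum_range_one]
  have h1 : Real.exp (-(2 * (r + 1) * L)) ≤ Real.exp (-(2 * r * L)) :=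
    Real.exp_le_exp.2 (by nlinarith)
  have a := min_le_right (Real.exp (-(2 * (r + 1) * L)) ^ 0 * Real.exp (2 * r * L) ^ (1 - 0))
    (Real.exp (-(2 * (r + 1) * L)) ^ 0 * Real.exp (2 * r * L) ^ (1 - 0))⁻¹
  have b := min_le_left (Real.exp (-(2 * (r + 1) * L)) ^ 1 * Real.exp (2 * r * L) ^ (1 - 1))
    (Real.exp (-(2 * (r + 1) * L)) ^ 1 * Real.exp (2 * r * L) ^ (1 - 1))⁻¹
  have e1 : (Real.exp (-(2 * (r + 1) * L)) ^ 0 * Real.exp (2 * r * L) ^ (1 - 0))⁻¹ =
      Real.exp (-(2 * r * L)) := by simp [Real.exp_neg]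
  have e2 : Real.exp (-(2 * (r + 1) * L)) ^ 1 * Real.exp (2 * r * L) ^ (1 - 1) =
      Real.exp (-(2 * (r + 1) * L)) := by simp
  linarith

theorem exp_lin (x : ℝ) (t : ℕ) (hx0 : 0 ≤ x) (hx1 : x ≤ 1) (h : 2 * x * Real.exp (t * x) ≤ 1)
    (e : ℕ) (he : e ≤ t) : Real.exp (e * x) ≤ 1 + e := by
  induction e with
  | zero => simp
  | succ e ih =>
    have ih := ih (by omega)
    have h1 : Real.exp x ≤ 1 + 2 * x := by
      have := Real.abs_exp_sub_one_le (x := x) (by rw [abs_of_nonneg hx0]; exact hx1)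
      rw [abs_of_nonneg hx0] at this
      linarith [le_abs_self (Real.exp x - 1)]
    have h2 : Real.exp (e * x) ≤ Real.exp (t * x) := by
      apply Real.exp_le_exp.2
      have : (e : ℝ) ≤ t := by exact_mod_cast (by omega : e ≤ t)
      gcongr
    push_cast
    rw [add_mul, one_mul, Real.exp_add]
    have h3 : 0 < Real.exp (e * x) := Real.exp_pos _
    nlinarith

theorem exp_neg_two_mul_le {x : ℝ} (h0 : 0 ≤ x) (h1 : x ≤ 1 / 2) : Real.exp (-(2 * x)) ≤ 1 - x := by
  have h := Real.add_one_le_exp (2 * x)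
  rw [Real.exp_neg, inv_le_comm₀ (Real.exp_pos _) (by linarith)]
  refine le_trans ?_ h
  rw [inv_le_iff_one_le_mul₀ (by linarith)]
  nlinarith

end Crest.Agent.Imm
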