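import Mathlib
import Crest.Agent.Imm.Four
import Crest.Agent.Imm.Num

namespace Crest.Agent.Imm

open Finset MvPolynomial

theorem chain {N : ℕ} {V : Type*} [Fintype V] [DecidableEq V] (K : Type*) [Field K] [CharZero K]
    (c : Finset (Fin N)) (z : V) (p q n1 n2 : ℕ) (hn1 : #(Ys V c) = n1) (hn2 : #(Ys V c)ᶜ = n2)
    (hP : 0 < #(paths N z z))
    (hp0 : 0 < p) (hq0 : 0 < q) (hp : p + #c ≤ n1) (hq : q + #cᶜ ≤ n2)
    (g : ℕ → ℝ) (G : ℝ) (hg : ∀ v, |g v| ≤ G)
    (hY : ∀ l ∈ c, 1 ≤ (((n1 : ℝ) - p) / n1) * Real.exp (g (l + 1) - g l))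
    (hZ : ∀ l ∉ c, ((q : ℝ) / n2) ≤ Real.exp (g (l + 1) - g l))
    {α β κ W : ℝ} (hα0 : 0 < α) (hβ0 : 0 < β) (hκ : 1 ≤ κ)
    (hα : ((n1 : ℝ) - p) / p ≤ κ * α ^ 2) (hβ : ((n2 : ℝ) - q) / q ≤ κ * β ^ 2)
    (hW : Dec (Ys V c) α β (pathPoly K N z) W) :
    #(paths N z z) * (((n1 : ℝ) - p - #c) / n1) ^ (2 * #c) *
        (((n2 : ℝ) - q - #cᶜ) / n2) ^ (2 * #cᶜ) ≤
      κ ^ N * (α ^ #c * β ^ #cᶜ) * W *
        ((((n1 : ℝ) - p) / n1) ^ (2 * #c) * (Fintype.card V + Real.exp G) ^ (N + 1)) := by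
  classical
  subst hn1 hn2
  set n1 := #(Ys V c) with hn1
  set n2 := #(Ys V c)ᶜ with hn2
  set k := #c with hk
  set k' := #cᶜ with hk'
  have hkk : k + k' = N := by rw [hk, hk', card_add_card_compl, Fintype.card_fin]
  set dim : ℝ := (n1.choose p : ℝ) * (n2.choose q : ℝ) with hdim
  have hdim0 : 0 < dim := by
    have a := Nat.choose_pos (by omega : p ≤ n1)
    have b := Nat.choose_pos (by omega : q ≤ n2)
    positivity
  have hp' : (p : ℝ) + k ≤ n1 := by exact_mod_cast hp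
  have hq' : (q : ℝ) + k' ≤ n2 := by exact_mod_cast hq
  have hk0 : (0 : ℝ) ≤ k := by positivity
  have hk0' : (0 : ℝ) ≤ k' := by positivity
  have hu1 : 0 ≤ ((n1 : ℝ) - p - k) / n1 := div_nonneg (by linarith) (by positivity)
  have hu2 : 0 ≤ ((n2 : ℝ) - q - k') / n2 := div_nonneg (by linarith) (by positivity)
  have hu3 : 0 ≤ ((n1 : ℝ) - p) / p := div_nonneg (by linarith) (by positivity)
  have hu4 : 0 ≤ ((n2 : ℝ) - q) / q := div_nonneg (by linarith) (by positivity)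
  have hr := hW.rank_le hα0 hβ0 (p := p) (q := q) (k := k) (k' := k') (D := dim * κ ^ N)
    (by positivity) (by
      intro i j hi hj
      have a := choose_add_le n1 p i hp0 (by omega)
      have b := choose_add_le n2 q j hq0 (by omega)
      push_cast
      calc (n1.choose (p + i) : ℝ) * n2.choose (q + j)
          ≤ (n1.choose p * (κ * α ^ 2) ^ i) * (n2.choose q * (κ * β ^ 2) ^ j) := by
            gcongr
            · exact a.trans (by gcongr)
            · exact b.trans (by gcongr)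
        _ = dim * κ ^ (i + j) * (α ^ i * β ^ j) ^ 2 := by rw [hdim]; ring
        _ ≤ _ := by gcongr; omega)
  rw [Nm_pathPoly] at hr
  have hr2 : (((Fm c z p q).map (Nat.cast : ℕ → ℝ)).rank : ℝ) ≤
      dim * κ ^ N * (α ^ k * β ^ k') * W :=
    le_trans (Nat.cast_le.2 (rank_real_le (K := K) _)) hr
  have hf := frob_sq_le_rank ((Fm c z p q).map (Nat.cast : ℕ → ℝ))
  simp only [Matrix.map_apply] at hf
  have h2 := W2_ge c z p q
  have h4 := W4_le c z p q (by omega) (by omega) g G hg hY hZ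
  have a := choose_sub_ge n1 p k k le_rfl hp
  have b := choose_sub_ge n2 q k' k' le_rfl hq
  set Np : ℝ := ((#(paths N z z) : ℕ) : ℝ) with hNp
  have hNp0 : 0 < Np := by rw [hNp]; exact_mod_cast hP
  set u1 := ((n1 : ℝ) - p - k) / n1
  set u2 := ((n2 : ℝ) - q - k') / n2
  set T := (((n1 : ℝ) - p) / n1) ^ (2 * k) * (Fintype.card V + Real.exp G) ^ (N + 1) with hT
  have h5 : Np * (dim * u1 ^ k * u2 ^ k') ≤ ∑ S, ∑ T, ((Fm c z p q S T : ℕ) : ℝ) ^ 2 := by
    refine le_trans (mul_le_mul_of_nonneg_left ?_ hNp0.le) h2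
    calc dim * u1 ^ k * u2 ^ k' = (n1.choose p * u1 ^ k) * (n2.choose q * u2 ^ k') := by
          rw [hdim]; ring
      _ ≤ _ := mul_le_mul a b (by positivity) (by positivity)
  have h6 : (Np * (dim * u1 ^ k * u2 ^ k')) ^ 2 ≤
      (dim * κ ^ N * (α ^ k * β ^ k') * W) * (Np * (dim * T)) := by
    refine le_trans (pow_le_pow_left₀ (by positivity) h5 2) (hf.trans ?_)
    have hW0 := hW.nonneg hα0 hβ0
    refine mul_le_mul hr2 ?_ (Finset.sum_nonneg fun _ _ => Finset.sum_nonneg fun _ _ =>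
      sq_nonneg _) (by positivity)
    refine h4.trans (le_of_eq ?_)
    rw [hT, hdim]
    ring
  have h7 : (Np * dim ^ 2) * (Np * u1 ^ (2 * k) * u2 ^ (2 * k')) ≤
      (Np * dim ^ 2) * (κ ^ N * (α ^ k * β ^ k') * W * T) := by
    refine le_trans (le_of_eq ?_) (h6.trans (le_of_eq ?_))
    · ring
    · ring
  exact le_of_mul_le_mul_left h7 (by positivity)

end Crest.Agent.Imm
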