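import Mathlib
import Crest.Agent.Imm.Chain

namespace Crest.Agent.Imm

open Finset MvPolynomial Crest.ArithCircuit

theorem basic_facts (n : ℕ) (hn : Real.exp 1000 ≤ n) :
    1000 ≤ Real.log n ∧ Real.sqrt n = Real.exp (Real.log n / 2) ∧
      (Nat.sqrt n : ℝ) ≤ Real.sqrt n ∧ Real.sqrt n ≤ Nat.sqrt n + 1 ∧
      Real.log n * Real.exp (Real.log n / 8) ≤ Nat.sqrt n := by
  have hn0 : (0 : ℝ) < n := lt_of_lt_of_le (Real.exp_pos _) hn
  have h1 : 1000 ≤ Real.log n := (Real.le_log_iff_exp_le hn0).2 hn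
  have h2 : Real.sqrt n = Real.exp (Real.log n / 2) := by
    rw [Real.sqrt_eq_iff_mul_self_eq hn0.le (Real.exp_pos _).le, ← Real.exp_add, add_halves,
      Real.exp_log hn0]
  have h3 := Real.nat_sqrt_le_real_sqrt (a := n)
  have h4 := Real.real_sqrt_le_nat_sqrt_succ (a := n)
  refine ⟨h1, h2, h3, h4, ?_⟩
  set l := Real.log n
  have a1 : Real.exp (l / 2) = Real.exp (l / 8) * (Real.exp (3 * l / 16) * Real.exp (3 * l / 16)) := by
    rw [← Real.exp_add, ← Real.exp_add]; congr 1; ring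
  have a2 := Real.add_one_le_exp (3 * l / 16)
  have a3 : 2 * l ≤ Real.exp (3 * l / 16) * Real.exp (3 * l / 16) := by nlinarith
  have a4 : 1 ≤ Real.exp (l / 8) := Real.one_le_exp (by linarith)
  have a5 : Real.exp (l / 8) * (2 * l) ≤ Real.exp (l / 2) := by rw [a1]; gcongr
  nlinarith

theorem param_a (s ρ k n1 a : ℝ) (hs : 1000 ≤ s) (hρ1 : s ≤ ρ) (hρ2 : ρ ≤ 2 * s) (hk : 1 ≤ k)
    (hn1 : k * s ^ 3 ≤ n1) (ha0 : 0 ≤ a) (ha1 : n1 ≤ a * ρ) (ha2 : a * ρ ≤ n1 + ρ) :
    0 < n1 ∧ a < n1 ∧ k * s ≤ 2 * a ∧ k ≤ a ∧ a * ρ ≤ (1 + 4 / s) * (n1 - a) := by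
  have hs2 : 1000 * s ≤ s ^ 2 := by nlinarith
  have hs3 : 1000 * s ^ 2 ≤ s ^ 3 := by nlinarith
  have hn1b : s ^ 3 ≤ n1 := le_trans (le_mul_of_one_le_left (by positivity) hk) hn1
  have c0 : a * s ≤ a * ρ := by gcongr
  have ha3 : a * s ≤ 2 * n1 := by linarith
  have c1 : a * 1000 ≤ a * s := by gcongr
  have ha5 : k * s ≤ 2 * a := by
    have b1 : k * s * s ≤ k * s ^ 3 := by
      have : k * s ^ 3 = k * s * s ^ 2 := by ring
      rw [this]; gcongr; linarith
    have b0 : a * ρ ≤ a * (2 * s) := by gcongr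
    have b2 : k * s * s ≤ 2 * a * s := by linarith
    exact le_of_mul_le_mul_right b2 (by linarith)
  have c2 : k * 1000 ≤ k * s := by gcongr
  refine ⟨by linarith, by linarith, ha5, by linarith, ?_⟩
  have b1 : (1 + 4 / s) * (n1 - a) * s = (s + 4) * (n1 - a) := by field_simp
  have b2 : a * ρ * s * s ≤ (s + 4) * (n1 - a) * s := by
    have d1 : a * ρ * s * s ≤ (n1 + 2 * s) * s * s := by gcongr; linarith
    have d2 : (s + 4) * (n1 * s - 2 * n1) ≤ (s + 4) * (n1 * s - a * s) := by gcongr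
    have d3 : n1 * 1000 ≤ n1 * s := by gcongr; linarith
    nlinarith
  have b3 : a * ρ * s ≤ (s + 4) * (n1 - a) := le_of_mul_le_mul_right b2 (by linarith)
  rw [← b1] at b3
  exact le_of_mul_le_mul_right b3 (by linarith)

theorem param_b (s k n2 q : ℝ) (hs : 1000 ≤ s) (hk : 1 ≤ k) (hn2 : k * s ^ 3 ≤ n2)
    (hq1 : q * s ≤ n2) (hq2 : n2 ≤ q * s + s) :
    0 < n2 ∧ 0 < q ∧ (q + k) * s ≤ 2 * n2 ∧ q + k ≤ n2 ∧ n2 - q ≤ (1 + 4 / s) * s * q := by
  have hs2 : 1000 * s ≤ s ^ 2 := by nlinarith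
  have hs3 : 1000 * s ^ 2 ≤ s ^ 3 := by nlinarith
  have hn1b : s ^ 3 ≤ n2 := le_trans (le_mul_of_one_le_left (by positivity) hk) hn2
  have b3 : s ≤ q := by
    have : s * s ≤ q * s := by nlinarith
    exact le_of_mul_le_mul_right this (by linarith)
  have hq3 : (q + k) * s ≤ 2 * n2 := by
    have : k * s ≤ k * s ^ 3 := by gcongr; linarith
    linarith
  have c1 : (q + k) * 1000 ≤ (q + k) * s := by gcongr; linarith
  have b1 : (1 + 4 / s) * s = s + 4 := by field_simp
  refine ⟨by linarith, by linarith, hq3, by linarith, ?_⟩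
  rw [b1]
  linarith

set_option maxHeartbeats 4000000 in
theorem dec_lower (K : Type*) [Field K] [CharZero K] (n : ℕ) (hn : Real.exp 1000 ≤ n) (z : Fin n)
    (r : ℕ) (hr : r = Nat.sqrt n) (L : ℝ) (hL : L = Real.log n / (8 * r)) (W : ℝ)
    (hW : Dec (Ys (Fin n) (cl r n)) (Real.exp (-(2 * (r + 1) * L))) (Real.exp (2 * r * L))
      (pathPoly K n z) W) :
    1 ≤ W * n ^ 3 * Real.exp (14 * Real.sqrt n) := by
  obtain ⟨h1, h2, h3, h4, h5⟩ := basic_facts n hn
  rw [← hr] at h3 h4 h5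
  set l := Real.log n with hl
  set s := Real.sqrt n with hs
  have hn0 : (0 : ℝ) < n := lt_of_lt_of_le (Real.exp_pos _) hn
  have hss : s * s = n := Real.mul_self_sqrt hn0.le
  have hlr : l ≤ r := by
    have : 1 ≤ Real.exp (l / 8) := Real.one_le_exp (by linarith)
    nlinarith
  have hr0 : (1000 : ℝ) ≤ r := by linarith
  have hs0 : (1000 : ℝ) ≤ s := by linarith
  have hrL : r * L = l / 8 := by rw [hL]; field_simp
  have hL0 : 0 < L := by rw [hL]; positivity
  have hL1 : L ≤ 1 / 8 := by nlinarith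
  have hn2 : (2 : ℝ) ≤ n := by nlinarith
  have hn2' : 2 ≤ n := by exact_mod_cast hn2
  have hr1 : 1 ≤ r := by
    have : (1 : ℝ) ≤ r := by linarith
    exact_mod_cast this
  have hW0 := hW.nonneg (Real.exp_pos _) (Real.exp_pos _)
  set c := cl r n with hc
  obtain ⟨hk1, hk1'⟩ := cl_pos hr1 hn2'
  rw [← hc] at hk1 hk1'
  set k := #c with hk
  set k' := #cᶜ with hk'
  have hkk : k + k' = n := by rw [hk, hk', card_add_card_compl, Fintype.card_fin]
  have hkR : (1 : ℝ) ≤ k := by exact_mod_cast hk1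
  have hkR' : (1 : ℝ) ≤ k' := by exact_mod_cast hk1'
  set ρ := Real.exp (4 * (r + 1) * L) with hρ
  have hsexp : Real.exp (4 * r * L) = s := by rw [h2]; congr 1; linarith
  have hρ1 : s ≤ ρ := by rw [← hsexp, hρ]; apply Real.exp_le_exp.2; linarith
  have hρ2 : ρ ≤ 2 * s := by
    have e : ρ = s * Real.exp (4 * L) := by rw [← hsexp, hρ, ← Real.exp_add]; congr 1; ring
    have : Real.exp (4 * L) ≤ 2 := by
      have := Real.abs_exp_sub_one_le (x := 4 * L) (by rw [abs_of_nonneg (by linarith)]; linarith)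
      rw [abs_of_nonneg (by linarith : 0 ≤ 4 * L)] at this
      linarith [le_abs_self (Real.exp (4 * L) - 1)]
    rw [e, mul_comm]; gcongr
  have hρ0 : 0 < ρ := by linarith
  set n1 := k * n ^ 2 with hn1
  set n2 := k' * n ^ 2 with hn2d
  have hn1R : (n1 : ℝ) = k * (s * s) ^ 2 := by rw [hss, hn1]; push_cast; ring
  have hn2R : (n2 : ℝ) = k' * (s * s) ^ 2 := by rw [hss, hn2d]; push_cast; ring
  have hs4 : 1000 * s ^ 3 ≤ (s * s) ^ 2 := by
    have : (s * s) ^ 2 = s * s ^ 3 := by ring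
    rw [this]; gcongr
  have hs4 : s ^ 3 ≤ (s * s) ^ 2 := by
    have : 0 ≤ s ^ 3 := by positivity
    linarith
  have hn1a : k * s ^ 3 ≤ n1 := by rw [hn1R]; gcongr
  have hn2a : k' * s ^ 3 ≤ n2 := by rw [hn2R]; gcongr
  set a := ⌈(n1 : ℝ) / ρ⌉₊ with ha
  have ha1 : (n1 : ℝ) ≤ a * ρ := by
    have := Nat.le_ceil ((n1 : ℝ) / ρ)
    rwa [div_le_iff₀ hρ0] at this
  have ha2 : a * ρ ≤ n1 + ρ := by
    have := (Nat.ceil_lt_add_one (by positivity : 0 ≤ (n1 : ℝ) / ρ)).le
    rw [← ha, div_add_one hρ0.ne', le_div_iff₀ hρ0] at this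
    exact this
  have ha0 : (0 : ℝ) ≤ a := by positivity
  obtain ⟨hn10, ha4, ha5, ha6, ha8⟩ := param_a s ρ k n1 a hs0 hρ1 hρ2 hkR hn1a ha0 ha1 ha2
  have ha4' : a < n1 := by exact_mod_cast ha4
  have ha6' : k ≤ a := by exact_mod_cast ha6
  have ha7 : (0 : ℝ) < a := by linarith
  set p := n1 - a with hp
  have hpR : (p : ℝ) = n1 - a := by rw [hp, Nat.cast_sub ha4'.le]
  set q := ⌊(n2 : ℝ) / s⌋₊ with hq
  have hq1 : q * s ≤ n2 := by
    have := Nat.floor_le (by positivity : 0 ≤ (n2 : ℝ) / s)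
    rwa [le_div_iff₀ (by linarith)] at this
  have hq2 : (n2 : ℝ) ≤ q * s + s := by
    have := (Nat.lt_floor_add_one ((n2 : ℝ) / s)).le
    rw [div_le_iff₀ (by linarith)] at this
    linarith
  obtain ⟨hn20, hq0, hq3, hq4, hq5⟩ := param_b s k' n2 q hs0 hkR' hn2a hq1 hq2
  clear_value a q
  have hκ : 1 + 4 / s ≤ Real.exp (4 / s) := by linarith [Real.add_one_le_exp (4 / s)]
  have hs4' : 0 < 4 / s := by positivity
  have key := chain K c z p q n1 n2 (by rw [card_Ys, Fintype.card_fin])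
    (by rw [compl_Ys, card_Ys, Fintype.card_fin])
    (by
      obtain ⟨m, rfl⟩ : ∃ m, n = m + 1 := ⟨n - 1, by omega⟩
      rw [card_paths]; simp)
    (by omega) (by exact_mod_cast hq0) (by omega) (by exact_mod_cast hq4)
    (fun v => 4 * L * walk r v) (4 * r * L)
    (fun v => by
      have := walk_bound r v
      have b1 : (-(r : ℝ)) ≤ walk r v := by exact_mod_cast this.1
      have b2 : (walk r v : ℝ) ≤ r := by exact_mod_cast this.2
      rw [abs_le]
      have c1 := mul_le_mul_of_nonneg_left b1 hL0.le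
      have c2 := mul_le_mul_of_nonneg_left b2 hL0.le
      constructor <;> linarith)
    (fun v hv => by
      rw [hc, mem_cl] at hv
      have e : 4 * L * (walk r (v + 1) : ℝ) - 4 * L * walk r v = 4 * (r + 1) * L := by
        simp only [walk, if_pos hv]; push_cast; ring
      rw [e, ← hρ, hpR, sub_sub_cancel, div_mul_eq_mul_div, le_div_iff₀ hn10]
      linarith)
    (fun v hv => by
      rw [hc, mem_cl] at hv
      have e : 4 * L * (walk r (v + 1) : ℝ) - 4 * L * walk r v = -(4 * r * L) := by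
        simp only [walk, if_neg hv]; push_cast; ring
      rw [e, Real.exp_neg, hsexp, div_le_iff₀ hn20, inv_mul_eq_div, le_div_iff₀ (by linarith)]
      exact hq1)
    (κ := Real.exp (4 / s)) (Real.exp_pos _) (Real.exp_pos _) (Real.one_le_exp hs4'.le)
    (by
      have e : Real.exp (-(2 * (r + 1) * L)) ^ 2 = ρ⁻¹ := by
        rw [← Real.exp_nat_mul, hρ, ← Real.exp_neg]; congr 1; push_cast; ring
      rw [e, hpR, sub_sub_cancel, ← div_eq_mul_inv, div_le_div_iff₀ (by linarith) hρ0]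
      exact ha8.trans (mul_le_mul_of_nonneg_right hκ (by linarith)))
    (by
      have e : Real.exp (2 * r * L) ^ 2 = s := by
        rw [← Real.exp_nat_mul, ← hsexp]; congr 1; push_cast; ring
      rw [e, div_le_iff₀ hq0]
      exact hq5.trans (by gcongr))
    hW
  rw [← hk, ← hk', hpR, sub_sub_cancel, hsexp, Fintype.card_fin] at key
  have hPn : (#(paths n z z) : ℝ) * n ^ 2 = n ^ (n + 1) := by
    obtain ⟨m, rfl⟩ : ∃ m, n = m + 1 := ⟨n - 1, by omega⟩
    rw [card_paths, Fintype.card_fin]; push_cast; ring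
  have hex : Real.exp (-(4 / s)) ≤ 1 - 2 / s := by
    have := exp_neg_two_mul_le (x := 2 / s) (by positivity)
      (by rw [div_le_iff₀ (by linarith)]; linarith)
    rwa [show 2 * (2 / s) = 4 / s by ring] at this
  have u1 : Real.exp (-(4 / s)) * (a / n1) ≤ ((a : ℝ) - k) / n1 := by
    rw [← mul_div_assoc]
    gcongr
    refine le_trans (mul_le_mul_of_nonneg_right hex ha0) ?_
    have : k ≤ 2 / s * a := by
      rw [div_mul_eq_mul_div, le_div_iff₀ (by linarith)]; exact ha5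
    linarith
  have u2 : Real.exp (-(4 / s)) ≤ ((n2 : ℝ) - q - k') / n2 := by
    refine hex.trans ?_
    rw [le_div_iff₀ hn20]
    have : q + k' ≤ 2 / s * n2 := by
      rw [div_mul_eq_mul_div, le_div_iff₀ (by linarith)]; exact hq3
    linarith
  have u3 : Real.exp (-(2 * (r + 1) * L)) ^ k * Real.exp (2 * r * L) ^ k' ≤ n := by
    rw [← Real.exp_nat_mul, ← Real.exp_nat_mul, ← Real.exp_add, ← Real.exp_log hn0, ← hl]
    apply Real.exp_le_exp.2
    have b1 := walk_cl r n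
    rw [← hc, ← hk, ← hk'] at b1
    have b2 := (walk_bound r n).1
    rw [b1] at b2
    have b3 : (-(r : ℝ)) ≤ (r + 1) * k - r * k' := by exact_mod_cast b2
    have c1 := mul_le_mul_of_nonneg_left b3 hL0.le
    linarith
  have u4 : ((n : ℝ) + s) ^ (n + 1) ≤ n ^ (n + 1) * Real.exp (2 * s) := by
    have b1 : (n : ℝ) + s ≤ n * Real.exp (1 / s) := by
      have := Real.add_one_le_exp (1 / s)
      have e : (n : ℝ) + s = n * (1 / s + 1) := by rw [← hss]; field_simp; ring
      rw [e]; gcongr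
    calc _ ≤ (n * Real.exp (1 / s)) ^ (n + 1) := by gcongr
      _ = n ^ (n + 1) * Real.exp ((n + 1 : ℕ) * (1 / s)) := by rw [mul_pow, Real.exp_nat_mul]
      _ ≤ _ := by
        refine mul_le_mul_of_nonneg_left (Real.exp_le_exp.2 ?_) (by positivity)
        push_cast
        rw [mul_one_div, div_le_iff₀ (by linarith)]
        linarith
  have u5 : Real.exp (4 / s) ^ n = Real.exp (4 * s) := by
    rw [← Real.exp_nat_mul, ← hss]; congr 1; field_simp
  have u6 : Real.exp (-(4 / s)) ^ (2 * k) * Real.exp (-(4 / s)) ^ (2 * k') =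
      Real.exp (-(8 * s)) := by
    rw [← pow_add, ← mul_add, hkk, ← Real.exp_nat_mul]
    push_cast
    rw [← hss]; congr 1; field_simp; ring
  set Np : ℝ := ((#(paths n z z) : ℕ) : ℝ) with hNp
  have hNp0 : 0 < Np := by
    by_contra h
    have : Np * n ^ 2 ≤ 0 := mul_nonpos_of_nonpos_of_nonneg (not_lt.1 h) (by positivity)
    rw [hPn] at this
    exact absurd this (not_le.2 (by positivity))
  set p1 : ℝ := (a / n1) ^ (2 * k) with hp1
  have hp10 : 0 < p1 := by positivity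
  have f1 : Np * p1 * Real.exp (-(8 * s)) ≤
      Real.exp (4 * s) * n * W * (p1 * (Np * n ^ 2 * Real.exp (2 * s))) := by
    calc Np * p1 * Real.exp (-(8 * s))
        = Np * (Real.exp (-(4 / s)) * (a / n1)) ^ (2 * k) * Real.exp (-(4 / s)) ^ (2 * k') := by
          rw [← u6, mul_pow, hp1]; ring
      _ ≤ Np * (((a : ℝ) - k) / n1) ^ (2 * k) * (((n2 : ℝ) - q - k') / n2) ^ (2 * k') := by
          have : 0 ≤ ((a : ℝ) - k) / n1 := div_nonneg (by linarith) hn10.le
          gcongr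
      _ ≤ _ := key
      _ ≤ _ := by
          rw [u5, hPn]
          gcongr
  have f2 : (Np * p1 * Real.exp (-(8 * s))) * 1 ≤
      (Np * p1 * Real.exp (-(8 * s))) * (W * n ^ 3 * Real.exp (14 * s)) := by
    rw [mul_one]
    refine f1.trans (le_of_eq ?_)
    have : Real.exp (4 * s) * Real.exp (2 * s) = Real.exp (-(8 * s)) * Real.exp (14 * s) := by
      rw [← Real.exp_add, ← Real.exp_add]; congr 1; ring
    linear_combination (Np * p1 * W * n ^ 3) * this
  exact le_of_mul_le_mul_left f2 (by positivity)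

end Crest.Agent.Imm
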