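import Mathlib
import Crest.Agent.Imm.Final

namespace Crest.Agent.Imm

open Finset MvPolynomial Crest.ArithCircuit

theorem imm_eq (K : Type*) [Field K] (m : ℕ) : imm K (m + 1) = pathPoly K (m + 1) 0 := by
  show (List.ofFn (varMatrix K (m + 1))).prod 0 0 = _
  rw [prod_entry]
  rfl

theorem pathPoly_homog (K : Type*) [Field K] {V : Type*} [Fintype V] [DecidableEq V] (N : ℕ)
    (z : V) : (pathPoly K N z).IsHomogeneous N := by
  refine IsHomogeneous.sum _ _ _ fun σ _ => ?_
  have := IsHomogeneous.prod (univ : Finset (Fin N))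
    (fun l => (X (edge σ l) : MvPolynomial (Fin N × V × V) K)) (fun _ => 1)
    fun l _ => isHomogeneous_X K _
  simpa using this

theorem pathPoly_ne_zero (K : Type*) [Field K] [CharZero K] {V : Type*} [Fintype V]
    [DecidableEq V] (m : ℕ) (z : V) : pathPoly K (m + 1) z ≠ 0 := by
  intro h
  have := congrArg (eval (fun _ => (1 : K))) h
  simp only [pathPoly, map_sum, map_prod, eval_X, prod_const_one, sum_const, card_paths,
    nsmul_eq_mul, mul_one, map_zero, Nat.cast_eq_zero] at this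
  have : Nonempty V := ⟨z⟩
  have := Fintype.card_pos (α := V)
  exact absurd ‹_ ^ m = 0› (by positivity)

theorem weights (n : ℕ) (hn : Real.exp 1000 ≤ n) (r : ℕ) (hr : r = Nat.sqrt n) (L : ℝ)
    (hL : L = Real.log n / (8 * r)) :
    2 * Real.exp (-(2 * r * L)) ≤ 1 ∧ 0 < L ∧
    (∀ e ≤ r / 2, Sw (Real.exp (-(2 * (r + 1) * L))) (Real.exp (2 * r * L)) e ≤
      (Real.exp (-L) * (1 + 4 * Real.exp (-(4 * r * L)))) ^ e) ∧
    (Real.exp (-L) * (1 + 4 * Real.exp (-(4 * r * L)))) ^ n ≤
      Real.exp (4 * Real.sqrt n - Real.sqrt n * Real.log n / 16) ∧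
    (2 * Real.exp (-(2 * r * L))) ^ (r / 2) ≤
      Real.exp (4 * Real.sqrt n - Real.sqrt n * Real.log n / 16) := by
  obtain ⟨h1, h2, h3, h4, h5⟩ := basic_facts n hn
  rw [← hr] at h3 h4 h5
  set l := Real.log n with hl
  set s := Real.sqrt n with hs
  have hn0 : (0 : ℝ) < n := lt_of_lt_of_le (Real.exp_pos _) hn
  have hss : s * s = n := Real.mul_self_sqrt hn0.le
  have hlr : l ≤ r := by
    have : 1 ≤ Real.exp (l / 8) := Real.one_le_exp (by linarith)
    nlinarith
  have hr0 : (1000 : ℝ) ≤ r := by linarith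
  have hs0 : (1000 : ℝ) ≤ s := by linarith
  have hrL : r * L = l / 8 := by rw [hL]; field_simp
  have hL0 : 0 < L := by rw [hL]; positivity
  have hL1 : L ≤ 1 / 8 := by nlinarith
  have hhalf : Real.exp (-1) ≤ 1 / 2 := by
    have := Real.add_one_le_exp (1 : ℝ)
    rw [Real.exp_neg, inv_le_comm₀ (Real.exp_pos _) (by norm_num)]
    linarith
  have hsexp : Real.exp (-(4 * r * L)) = s⁻¹ := by
    rw [h2, ← Real.exp_neg]; congr 1; linarith
  have ht1 : 2 * ((r / 2 : ℕ) : ℝ) ≤ r := by exact_mod_cast Nat.mul_div_le r 2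
  have ht2 : (r : ℝ) ≤ 2 * ((r / 2 : ℕ) : ℝ) + 1 := by
    exact_mod_cast (by omega : r ≤ 2 * (r / 2) + 1)
  refine ⟨?_, hL0, fun e he => ?_, ?_, ?_⟩
  · have : Real.exp (-(2 * r * L)) ≤ Real.exp (-1) := Real.exp_le_exp.2 (by linarith)
    linarith
  · refine Sw_bound r e L hL0 (by omega) ?_ ?_
    · exact le_trans (Real.exp_le_exp.2 (by linarith)) hhalf
    · have := exp_lin (2 * L) (r / 2) (by linarith) (by linarith) ?_ e he
      · rwa [show 2 * (e : ℝ) * L = e * (2 * L) by ring]
      · have a1 : Real.exp (((r / 2 : ℕ) : ℝ) * (2 * L)) ≤ Real.exp (l / 8) := by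
          apply Real.exp_le_exp.2
          have := mul_le_mul_of_nonneg_right ht1 hL0.le
          linarith
        have a2 : 2 * (2 * L) * Real.exp (l / 8) * r ≤ 1 * r := by
          have : 2 * (2 * L) * Real.exp (l / 8) * r = 4 * (r * L) * Real.exp (l / 8) := by ring
          rw [this, hrL]
          have : 0 ≤ l * Real.exp (l / 8) := by positivity
          linarith
        have a3 := le_of_mul_le_mul_right a2 (by linarith)
        exact le_trans (by gcongr) a3
  · rw [hsexp]
    have a1 : 1 + 4 * s⁻¹ ≤ Real.exp (4 * s⁻¹) := by linarith [Real.add_one_le_exp (4 * s⁻¹)]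
    calc _ ≤ (Real.exp (-L) * Real.exp (4 * s⁻¹)) ^ n := by gcongr
      _ = Real.exp (n * (-L + 4 * s⁻¹)) := by rw [← Real.exp_add, Real.exp_nat_mul]
      _ ≤ _ := by
        apply Real.exp_le_exp.2
        have e : (n : ℝ) * (-L + 4 * s⁻¹) = 4 * s - s * (s * L) := by
          rw [← hss]; field_simp; ring
        rw [e]
        have b1 : r * L ≤ s * L := by gcongr
        have b2 : s * (l / 16) ≤ s * (s * L) := by gcongr; linarith
        linarith
  · have a1 : (2 : ℝ) ≤ Real.exp 1 := by linarith [Real.add_one_le_exp (1 : ℝ)]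
    calc _ ≤ (Real.exp 1 * Real.exp (-(2 * r * L))) ^ (r / 2) := by gcongr
      _ = Real.exp (((r / 2 : ℕ) : ℝ) * (1 + -(2 * r * L))) := by
        rw [← Real.exp_add, Real.exp_nat_mul]
      _ ≤ _ := by
        apply Real.exp_le_exp.2
        have e : 2 * (r : ℝ) * L = l / 4 := by linarith
        rw [e]
        have b1 : s / 4 * l ≤ ((r / 2 : ℕ) : ℝ) * l := by gcongr; linarith
        linarith

theorem main {K : Type*} [Field K] [CharZero K] {L B P S R : Type*} [Fintype L] [Fintype B]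
    [Fintype P] [Fintype S] [Fintype R] (n : ℕ) (hn : Real.exp 1000 ≤ n)
    (C : SPSPS K (Fin n × Fin n × Fin n) L B P S R) (hC : C.IsHomogeneous)
    (ho : C.output = imm K n) : (n : ℝ) ^ (Real.sqrt n / 400) ≤ (C.size : ℝ) := by
  have hn0 : (0 : ℝ) < n := lt_of_lt_of_le (Real.exp_pos _) hn
  have hn0' : 0 < n := by exact_mod_cast hn0
  obtain ⟨w1, w2, w3, w4, w5⟩ := weights n hn _ rfl _ rfl
  obtain ⟨h1, h2, h3, h4, h5⟩ := basic_facts n hn
  have hz : ∃ z : Fin n, imm K n = pathPoly K n z ∧ pathPoly K n z ≠ 0 := by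
    obtain ⟨m, rfl⟩ : ∃ m, n = m + 1 := ⟨n - 1, by omega⟩
    exact ⟨0, imm_eq K m, pathPoly_ne_zero K m 0⟩
  obtain ⟨z, hz1, hz2⟩ := hz
  have hdeg : C.degOut = n := by
    have a := homog_output C hC
    rw [ho, hz1] at a
    exact a.inj_right (pathPoly_homog K n z) hz2
  have hd := circ_dec C hC (Ys (Fin n) (cl (Nat.sqrt n) n)) (Real.exp_pos _) (Real.exp_pos _)
    (Nat.sqrt n / 2) (by positivity) w1 (Sw_one _ _ w2) w3 (Real.exp_pos _).le
    (by rw [hdeg]; exact w4) w5
  rw [ho, hz1, hdeg] at hd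
  have key := dec_lower K n hn z _ rfl _ rfl _ hd
  set l := Real.log n with hl
  set s := Real.sqrt n with hs
  have hlr : l ≤ s := by
    have : 1 ≤ Real.exp (l / 8) := Real.one_le_exp (by linarith)
    nlinarith
  have a1 : (Fintype.card R : ℝ) ≤ C.size := by
    have : Fintype.card R ≤ C.size := by unfold SPSPS.size; omega
    exact_mod_cast this
  have a2 : (Fintype.card P : ℝ) + 1 ≤ C.size := by
    have : Fintype.card P + 1 ≤ C.size := by unfold SPSPS.size; omega
    exact_mod_cast this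
  have hnl : (n : ℝ) = Real.exp l := (Real.exp_log hn0).symm
  have a3 : (n : ℝ) + 1 ≤ Real.exp (2 * l) := by
    have : Real.exp (2 * l) = n * n := by rw [two_mul, Real.exp_add, ← hnl]
    have h6 := Real.add_one_le_exp l
    rw [← hnl] at h6
    nlinarith
  have a4 : (n : ℝ) ^ 3 = Real.exp (3 * l) := by
    rw [hnl, ← Real.exp_nat_mul]; norm_num
  have a5 : 1 ≤ (C.size : ℝ) ^ 2 * Real.exp (18 * s + 5 * l - s * l / 16) := by
    refine key.trans ?_
    rw [a4]
    calc _ ≤ C.size * (C.size * Real.exp (2 * l) * Real.exp (4 * s - s * l / 16)) *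
          Real.exp (3 * l) * Real.exp (14 * s) := by gcongr
      _ = (C.size : ℝ) ^ 2 * (Real.exp (2 * l) * Real.exp (4 * s - s * l / 16) *
          Real.exp (3 * l) * Real.exp (14 * s)) := by ring
      _ = _ := by
        rw [← Real.exp_add, ← Real.exp_add, ← Real.exp_add]; congr 2; ring
  rw [Real.rpow_def_of_pos hn0, ← hl]
  refine (pow_le_pow_iff_left₀ (Real.exp_pos _).le (by positivity) two_ne_zero).1 ?_
  have a6 : Real.exp (l * (s / 400)) ^ 2 * Real.exp (18 * s + 5 * l - s * l / 16) ≤ 1 := by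
    rw [← Real.exp_nat_mul, ← Real.exp_add, Real.exp_le_one_iff]
    have : s * 1000 ≤ s * l := by gcongr
    push_cast
    linarith
  exact le_of_mul_le_mul_right (a6.trans a5) (Real.exp_pos _)

end Crest.Agent.Imm
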