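import Mathlib
import Crest.Prelude.Def_SPSPS
import Crest.Agent.Imm.Path

namespace Crest.Agent.Imm

open Finset MvPolynomial Crest.ArithCircuit

section reidx

variable {K ι L B P S R L' B' P' S' R' : Type*} [CommSemiring K]

/-- transport a circuit along bijections of the index types -/
def reidx (C : SPSPS K ι L B P S R) (eL : L ≃ L') (eB : B ≃ B') (eP : P ≃ P') (eS : S ≃ S')
    (eR : R ≃ R') : SPSPS K ι L' B' P' S' R' where
  leaf l := C.leaf (eL.symm l)
  inB b := (C.inB (eB.symm b)).map eL.toEmbedding
  coefB b l := C.coefB (eB.symm b) (eL.symm l)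
  inP p := (C.inP (eP.symm p)).map eB
  inS s := (C.inS (eS.symm s)).map eP.toEmbedding
  coefS s p := C.coefS (eS.symm s) (eP.symm p)
  inR r := (C.inR (eR.symm r)).map eS
  inOut := C.inOut.map eR.toEmbedding
  coefOut r := C.coefOut (eR.symm r)

variable (C : SPSPS K ι L B P S R) (eL : L ≃ L') (eB : B ≃ B') (eP : P ≃ P') (eS : S ≃ S')
    (eR : R ≃ R')

theorem reidx_output : (reidx C eL eB eP eS eR).output = C.output := by
  have h1 : ∀ l, (reidx C eL eB eP eS eR).leafVal l = C.leafVal (eL.symm l) := fun l => rfl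
  have h2 : ∀ b, (reidx C eL eB eP eS eR).valB b = C.valB (eB.symm b) := fun b => by
    simp only [SPSPS.valB, h1]
    simp [reidx]
  have h3 : ∀ b, (reidx C eL eB eP eS eR).valP b = C.valP (eP.symm b) := fun b => by
    simp only [SPSPS.valP]
    rw [show (reidx C eL eB eP eS eR).valB = fun b => C.valB (eB.symm b) from funext h2]
    simp [reidx]
  have h4 : ∀ b, (reidx C eL eB eP eS eR).valS b = C.valS (eS.symm b) := fun b => by
    simp only [SPSPS.valS, h3]
    simp [reidx]
  have h5 : ∀ b, (reidx C eL eB eP eS eR).valR b = C.valR (eR.symm b) := fun b => by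
    simp only [SPSPS.valR]
    rw [show (reidx C eL eB eP eS eR).valS = fun b => C.valS (eS.symm b) from funext h4]
    simp [reidx]
  simp only [SPSPS.output, h5]
  simp [reidx]

omit [CommSemiring K] in
theorem reidx_homog (h : C.IsHomogeneous) : (reidx C eL eB eP eS eR).IsHomogeneous := by
  have h1 : ∀ l, (reidx C eL eB eP eS eR).leafDeg l = C.leafDeg (eL.symm l) := fun l => rfl
  have h2 : ∀ b, (reidx C eL eB eP eS eR).degB b = C.degB (eB.symm b) := fun b => by
    simp only [SPSPS.degB]
    rw [show (reidx C eL eB eP eS eR).leafDeg = fun b => C.leafDeg (eL.symm b) from funext h1]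
    simp [reidx, Finset.sup_map, Function.comp_def]
  have h3 : ∀ b, (reidx C eL eB eP eS eR).degP b = C.degP (eP.symm b) := fun b => by
    simp only [SPSPS.degP]
    rw [show (reidx C eL eB eP eS eR).degB = fun b => C.degB (eB.symm b) from funext h2]
    simp [reidx]
  have h4 : ∀ b, (reidx C eL eB eP eS eR).degS b = C.degS (eS.symm b) := fun b => by
    simp only [SPSPS.degS]
    rw [show (reidx C eL eB eP eS eR).degP = fun b => C.degP (eP.symm b) from funext h3]
    simp [reidx, Finset.sup_map, Function.comp_def]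
  have h5 : ∀ b, (reidx C eL eB eP eS eR).degR b = C.degR (eR.symm b) := fun b => by
    simp only [SPSPS.degR]
    rw [show (reidx C eL eB eP eS eR).degS = fun b => C.degS (eS.symm b) from funext h4]
    simp [reidx]
  have h6 : (reidx C eL eB eP eS eR).degOut = C.degOut := by
    simp only [SPSPS.degOut]
    rw [show (reidx C eL eB eP eS eR).degR = fun b => C.degR (eR.symm b) from funext h5]
    simp [reidx, Finset.sup_map, Function.comp_def]
  refine ⟨fun b l hl => ?_, fun s p hp => ?_, fun r hr => ?_⟩
  · rw [h1, h2]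
    apply h.1
    simpa [reidx] using hl
  · rw [h3, h4]
    apply h.2.1
    simpa [reidx] using hp
  · rw [h5, h6]
    apply h.2.2
    simpa [reidx] using hr

end reidx

section constr

variable (K : Type*) [CommSemiring K] (n r t : ℕ)

/-- padded variable matrices -/
noncomputable def padM (m : ℕ) :
    Matrix (Fin n) (Fin n) (MvPolynomial (Fin n × Fin n × Fin n) K) :=
  if h : m < n then varMatrix K n ⟨m, h⟩ else 1

theorem prod_blocks (h : n ≤ r * t) :
    (List.ofFn (varMatrix K n)).prod =
      (List.ofFn fun c : Fin r => (List.ofFn fun l : Fin t => padM K n (c * t + l)).prod).prod := by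
  have h1 : (List.ofFn fun m : Fin (r * t) => padM K n m).prod =
      (List.ofFn fun c : Fin r => (List.ofFn fun l : Fin t => padM K n (c * t + l)).prod).prod := by
    rw [List.ofFn_mul, List.prod_flatten, List.map_ofFn]
    rfl
  rw [← h1]
  obtain ⟨d, hd⟩ := Nat.exists_eq_add_of_le h
  rw [hd, List.ofFn_add, List.prod_append]
  have e1 : (List.ofFn fun i : Fin d => padM K n ((Fin.natAdd n i : Fin (n + d)) : ℕ)).prod = 1 := by
    apply List.prod_eq_one
    intro x hx
    rw [List.mem_ofFn] at hx
    obtain ⟨i, rfl⟩ := hx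
    simp [padM]
  rw [e1, mul_one]
  congr 2
  funext i
  simp [padM]

/-- the block circuit -/
noncomputable def blockC (z : Fin n) :
    SPSPS K (Fin n × Fin n × Fin n) (Fin n × Fin n × Fin n) (Fin n × Fin n × Fin n)
      (Fin r × (Fin (t + 1) → Fin n)) (Fin r × Fin n × Fin n) (paths r z z) where
  leaf := Sum.inl
  inB b := {b}
  coefB _ _ := 1
  inP p := (univ : Finset (Fin t)).val.bind fun l =>
    if h : p.1 * t + l < n then {(⟨p.1 * t + l, h⟩, p.2 l.castSucc, p.2 l.succ)} else 0
  inS s := {s.1} ×ˢ univ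
  coefS s p := (if p.2 ∈ paths t s.2.1 s.2.2 then 1 else 0) *
    ∏ l : Fin t, if p.1 * t + l < n then 1 else if p.2 l.castSucc = p.2 l.succ then 1 else 0
  inR ρ := (univ : Finset (Fin r)).val.map fun c => (c, ρ.1 c.castSucc, ρ.1 c.succ)
  inOut := univ
  coefOut _ := 1

theorem blockC_output (z : Fin n) (h : n ≤ r * t) :
    (blockC K n r t z).output = (List.ofFn (varMatrix K n)).prod z z := by
  have h2 : ∀ b, (blockC K n r t z).valB b = X b := fun b => by
    simp [SPSPS.valB, blockC, SPSPS.leafVal]
  have h3 : ∀ p, (blockC K n r t z).valP p = ∏ l : Fin t,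
      if h : p.1 * t + l < n then X (⟨p.1 * t + l, h⟩, p.2 l.castSucc, p.2 l.succ) else 1 := by
    intro p
    simp only [SPSPS.valP]
    rw [show (blockC K n r t z).valB = X from funext h2]
    simp only [blockC, Multiset.map_bind, Multiset.prod_bind]
    rw [Finset.prod_eq_multiset_prod]
    congr 2
    funext l
    split_ifs <;> simp
  have h4 : ∀ s, (blockC K n r t z).valS s =
      (List.ofFn fun l : Fin t => padM K n (s.1 * t + l)).prod s.2.1 s.2.2 := by
    intro s
    rw [prod_entry]
    simp only [SPSPS.valS, h3]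
    simp only [blockC, Finset.sum_product, Finset.sum_singleton]
    rw [← Finset.sum_subset (Finset.subset_univ (paths t s.2.1 s.2.2))]
    · refine Finset.sum_congr rfl fun σ hσ => ?_
      rw [if_pos hσ, one_mul, smul_eq_C_mul, map_prod, ← Finset.prod_mul_distrib]
      refine Finset.prod_congr rfl fun l _ => ?_
      unfold padM
      split_ifs with h1 h2
      · simp [varMatrix]
      · rw [h2]; simp
      · simp [h2]
    · intro σ _ hσ
      rw [if_neg hσ]
      simp
  rw [prod_blocks K n r t h, prod_entry]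
  simp only [SPSPS.output, SPSPS.valR]
  rw [show (blockC K n r t z).valS = _ from funext h4]
  simp only [blockC, one_smul, Multiset.map_map, Function.comp_def]
  rw [← Finset.sum_coe_sort (paths r z z)]
  rfl

theorem blockC_homog (z : Fin n) : (blockC K n r t z).IsHomogeneous := by
  have h2 : ∀ b, (blockC K n r t z).degB b = 1 := fun b => by
    simp [SPSPS.degB, blockC, SPSPS.leafDeg]
  have h3 : ∀ p, (blockC K n r t z).degP p = ∑ l : Fin t, if p.1 * t + l < n then 1 else 0 := by
    intro p
    simp only [SPSPS.degP]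
    rw [show (blockC K n r t z).degB = fun _ => 1 from funext h2]
    simp only [blockC, Multiset.map_bind, Multiset.sum_bind]
    rw [Finset.sum_eq_multiset_sum]
    congr 2
    funext l
    split_ifs <;> simp
  have h4 : ∀ s, (blockC K n r t z).degS s = ∑ l : Fin t, if s.1 * t + l < n then 1 else 0 := by
    intro s
    simp only [SPSPS.degS]
    rw [Finset.sup_congr rfl (g := fun _ => ∑ l : Fin t, if s.1 * t + l < n then 1 else 0),
      Finset.sup_const]
    · exact ⟨(s.1, fun _ => z), by simp [blockC]⟩
    · intro p hp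
      rw [h3]
      have : p.1 = s.1 := Finset.mem_singleton.1 (Finset.mem_product.1 hp).1
      rw [this]
  have h5 : ∀ ρ, (blockC K n r t z).degR ρ =
      ∑ c : Fin r, ∑ l : Fin t, if c * t + l < n then 1 else 0 := by
    intro ρ
    simp only [SPSPS.degR]
    rw [show (blockC K n r t z).degS = _ from funext h4]
    simp only [blockC, Multiset.map_map, Function.comp_def]
    rfl
  refine ⟨fun b l hl => ?_, fun s p hp => ?_, fun ρ hρ => ?_⟩
  · rw [h2]; rfl
  · rw [h3, h4]
    have : p.1 = s.1 := Finset.mem_singleton.1 (Finset.mem_product.1 hp).1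
    rw [this]
  · simp only [SPSPS.degOut]
    rw [show (blockC K n r t z).degR = _ from funext h5, Finset.sup_const ⟨ρ, hρ⟩]

theorem exists_block (hn : 1 ≤ n) (hr : 1 ≤ r) (h : n ≤ r * t) :
    ∃ (l b p s r' : ℕ)
      (C : SPSPS K (Fin n × Fin n × Fin n) (Fin l) (Fin b) (Fin p) (Fin s) (Fin r')),
      C.IsHomogeneous ∧ C.output = imm K n ∧
        C.size = 2 * n ^ 3 + r * n ^ 2 + r * n ^ (t + 1) + n ^ (r - 1) + 1 := by
  obtain ⟨n, rfl⟩ : ∃ m, n = m + 1 := ⟨n - 1, by omega⟩
  obtain ⟨r, rfl⟩ : ∃ m, r = m + 1 := ⟨r - 1, by omega⟩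
  refine ⟨_, _, _, _, _, reidx (blockC K (n + 1) (r + 1) t 0) (Fintype.equivFin _)
    (Fintype.equivFin _) (Fintype.equivFin _) (Fintype.equivFin _) (Fintype.equivFin _),
    reidx_homog _ _ _ _ _ _ (blockC_homog _ _ _ _ _), ?_, ?_⟩
  · rw [reidx_output, blockC_output _ _ _ _ _ h]
    rfl
  · simp only [SPSPS.size, Fintype.card_fin, Fintype.card_prod, Fintype.card_coe, card_paths,
      Fintype.card_fun, Nat.add_sub_cancel]
    ring

end constr

end Crest.Agent.Imm
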